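import Vale.Agent.P032.H642.Rh

/-!
# P032: the counts at good ends without a bound on the number of colours of the fourth vertex

`n54`: the points at distance one of a four coloured point have at most four colours.  The theorems
`count_special` and `count_two` of `H642/Rh.lean` with `n54` in place of `|T| ≤ 4` everywhere.  At a
clean `v` the fourth vertices `v + q - z` are light (one colour of `{a, b}` missing) or heavy at `v`; a
heavy one leaves only one further centre, two light ones with the same missing colour are equal.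
-/

open Set Filter Topology Metric

noncomputable section

namespace Vale.Agent.P032.H942

open Vale.Agent.P032.Six Vale.Agent.P032.S5.H767 Vale.Agent.P032.H642

variable {U : Fin 6 → Set ℂ} {T : ℂ → Set (Fin 6)} {z v q q' : ℂ} {a b c d g p i i' : Fin 6}

/-- the palette of a clean `v` -/
theorem clean_pal (h : Irr U T) (G : GP T z v q a b c d g p) (hpv : p ∉ T v) :
    T v = {a, b, g} := by
  refine Subset.antisymm (fun m hm => ?_) ?_
  · rcases G.sv hm with h2 | h2 | h2 | h2
    · rw [h2]; simp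
    · rw [h2]; simp
    · rw [h2]; simp
    · rw [mem_singleton_iff.1 h2] at hm; exact absurd hm hpv
  · have hsub := sub_of_closure h G.hv
    rintro m (rfl | rfl | h2)
    · exact hsub (by simp)
    · exact hsub (by simp)
    · rw [mem_singleton_iff.1 h2]; exact G.gv

/-- two light centres with the same missing colour -/
theorem light_eq (h : Irr U T) (G : GP T z v q a b c d g p) (G' : GP T z v q' a b c d g p)
    (hpv : p ∉ T v) (hi : i = a ∧ i' = b ∨ i = b ∧ i' = a) (hw : i ∈ T (v + q - z))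
    (hw' : i' ∉ T (v + q' - z)) : q = q' := by
  by_contra hne
  have hn := G.nd
  simp only [List.nodup_cons, List.mem_cons, List.not_mem_nil, or_false, not_or, List.nodup_nil,
    and_true, not_false_eq_true] at hn
  obtain ⟨⟨ab, ac, ad, ag, ap⟩, ⟨bc, bd, bg, bp⟩, ⟨cd, cg, cp⟩, ⟨dg, dp⟩, gp⟩ := hn
  have hii : i ≠ i' := by
    rcases hi with ⟨rfl, rfl⟩ | ⟨rfl, rfl⟩
    exacts [ab, Ne.symm ab]
  have hgi : g ≠ i := by
    rcases hi with ⟨rfl, rfl⟩ | ⟨rfl, rfl⟩
    exacts [Ne.symm ag, Ne.symm bg]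
  have hgi' : g ≠ i' := by
    rcases hi with ⟨rfl, rfl⟩ | ⟨rfl, rfl⟩
    exacts [Ne.symm bg, Ne.symm ag]
  have hTv := clean_pal h G hpv
  have hi'z : i' ∈ T z := by
    rw [G.pal]
    rcases hi with ⟨-, rfl⟩ | ⟨-, rfl⟩ <;> simp
  have hA : Acc T (v + q - z) {g, i} v := by
    rcases h.acc_or (q := v + q - z) (u := v) (r := i') (P := {g, i}) (by
        rw [hTv]
        rcases hi with ⟨rfl, rfl⟩ | ⟨rfl, rfl⟩ <;> intro m <;>
          simp only [mem_insert_iff, mem_singleton_iff] <;> tauto) (by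
        rintro m (rfl | h1)
        · exact G.g_mem h
        · rw [mem_singleton_iff.1 h1]; exact hw) (Set.ncard_pair hgi).le with h1 | h1
    · exact h1
    · exfalso
      rcases h.mx.partner_line (u := v + q - z) (p := v) (t := i')
        (by rw [dist_comm]; exact G.dwv) (h1.mono fun y hy => h.sub y hy) (v := z)
        G.dv (h.sub z hi'z) with h2 | h2
      · exact G.op h (by linear_combination -h2)
      · exact G.ne h (by linear_combination -h2)
  refine stripF h (u := v) (u' := q') (q := v + q' - z) (p := v + q - z) (P := {g, i})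
    (s := {c, d, p}) G'.fq (G'.ne h) G'.dwv G'.dwq ?_ ?_ ?_ ?_ hA
  · intro h1
    exact G'.op h (by linear_combination -h1)
  · intro m hm
    rcases all_of_nodup G.nd m with h1 | h1 | h1 | h1 | h1 | h1
    · rcases hi with ⟨h2, h3⟩ | ⟨h2, h3⟩
      · left; rw [h1, h2]; simp
      · rw [h1, ← h3] at hm; exact absurd hm hw'
    · rcases hi with ⟨h2, h3⟩ | ⟨h2, h3⟩
      · rw [h1, ← h3] at hm; exact absurd hm hw'
      · left; rw [h1, h2]; simp
    · right; rw [h1]; simp
    · right; rw [h1]; simp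
    · left; rw [h1]; simp
    · right; rw [h1]; simp
  · intro h1
    have h2 : i' ∈ T v := by
      rw [hTv]
      rcases hi with ⟨-, rfl⟩ | ⟨-, rfl⟩ <;> simp
    rw [h1] at h2
    rcases h2 with h2 | h2
    · exact hgi' h2.symm
    · exact hii h2.symm
  · intro h1
    exact hne (by linear_combination h1)

/-- at a heavy fourth vertex the colour `g` stays: every other centre with `g` is on the line -/
theorem heavy_line (h : Irr U T) (G : GP T z v q a b c d g p) (hpv : p ∉ T v)
    (ha : a ∈ T (v + q - z)) (hb : b ∈ T (v + q - z)) {w : ℂ} (hw : dist w v = 1)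
    (hg : g ∈ T w) : w = v + q - z ∨ w + (v + q - z) = 2 * v := by
  have hn := G.nd
  simp only [List.nodup_cons, List.mem_cons, List.not_mem_nil, or_false, not_or, List.nodup_nil,
    and_true, not_false_eq_true] at hn
  obtain ⟨⟨ab, ac, ad, ag, ap⟩, ⟨bc, bd, bg, bp⟩, ⟨cd, cg, cp⟩, ⟨dg, dp⟩, gp⟩ := hn
  have hTv := clean_pal h G hpv
  rcases h.acc_or (q := v + q - z) (u := v) (r := g) (P := {a, b}) (by
      rw [hTv]; intro m; simp only [mem_insert_iff, mem_singleton_iff]; tauto) (by
      rintro m (rfl | h1)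
      · exact ha
      · rw [mem_singleton_iff.1 h1]; exact hb) (Set.ncard_pair ab).le with h1 | h1
  · exfalso
    refine stripF h (u := v) (u' := q) (q := z) (p := v + q - z) (P := {a, b})
      (s := {c, d, p}) G.fq (G.ne h) (by rw [dist_comm]; exact G.dv)
      (by rw [dist_comm]; exact G.dq) (G.op h) ?_ ?_ ?_ h1
    · rw [G.pal]; intro m; simp only [mem_insert_iff, mem_singleton_iff, mem_union]; tauto
    · intro h2
      have h3 : g ∈ T v := G.gv
      rw [h2] at h3
      rcases h3 with h3 | h3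
      exacts [ag h3.symm, bg h3.symm]
    · intro h2
      exact G.op h (by linear_combination h2)
  · exact h.mx.partner_line (u := v + q - z) (p := v) (t := g) (by rw [dist_comm]; exact G.dwv)
      (h1.mono fun y hy => h.sub y hy) (v := w) (by rw [dist_comm]; exact hw) (h.sub w hg)

/-- **A clean end has at most two complementary ends**, no bound on the number of colours. -/
theorem count_clean (h : Irr U T) {q1 q2 q3 : ℂ} (G1 : GP T z v q1 a b c d g p)
    (G2 : GP T z v q2 a b c d g p) (G3 : GP T z v q3 a b c d g p) (hpv : p ∉ T v) :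
    q1 = q2 ∨ q1 = q3 ∨ q2 = q3 := by
  -- no heavy vertex
  have heavy : ∀ {q1 q2 q3 : ℂ}, GP T z v q1 a b c d g p → GP T z v q2 a b c d g p →
      GP T z v q3 a b c d g p → a ∈ T (v + q1 - z) → b ∈ T (v + q1 - z) →
      q1 = q2 ∨ q1 = q3 ∨ q2 = q3 := by
    intro q1 q2 q3 G1 G2 G3 ha hb
    rcases heavy_line h G1 hpv ha hb G2.dwv (G2.g_mem h) with h1 | h1
    · exact Or.inl (by linear_combination -h1)
    · rcases heavy_line h G1 hpv ha hb G3.dwv (G3.g_mem h) with h2 | h2
      · exact Or.inr (Or.inl (by linear_combination -h2))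
      · exact Or.inr (Or.inr (by linear_combination h1 - h2))
  have key : ∀ {q : ℂ}, GP T z v q a b c d g p → (a ∈ T (v + q - z) ∧ b ∈ T (v + q - z)) ∨
      (a ∈ T (v + q - z) ∧ b ∉ T (v + q - z)) ∨ (b ∈ T (v + q - z) ∧ a ∉ T (v + q - z)) := by
    intro q G
    obtain ⟨i, hi, hiw⟩ := G.i_mem h
    by_cases k1 : a ∈ T (v + q - z)
    · by_cases k2 : b ∈ T (v + q - z)
      · exact Or.inl ⟨k1, k2⟩
      · exact Or.inr (Or.inl ⟨k1, k2⟩)
    · rcases hi with rfl | rfl
      · exact absurd hiw k1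
      · exact Or.inr (Or.inr ⟨hiw, k1⟩)
  rcases key G1 with h1 | h1 | h1
  · exact heavy G1 G2 G3 h1.1 h1.2
  all_goals rcases key G2 with h2 | h2 | h2
  · rcases heavy G2 G1 G3 h2.1 h2.2 with h3 | h3 | h3
    exacts [Or.inl h3.symm, Or.inr (Or.inr h3), Or.inr (Or.inl h3)]
  · exact Or.inl (light_eq h G1 G2 hpv (Or.inl ⟨rfl, rfl⟩) h1.1 h2.2)
  · rcases key G3 with h3 | h3 | h3
    · rcases heavy G3 G1 G2 h3.1 h3.2 with h5 | h5 | h5
      exacts [Or.inr (Or.inl h5.symm), Or.inr (Or.inr h5.symm), Or.inl h5]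
    · exact Or.inr (Or.inl (light_eq h G1 G3 hpv (Or.inl ⟨rfl, rfl⟩) h1.1 h3.2))
    · exact Or.inr (Or.inr (light_eq h G2 G3 hpv (Or.inr ⟨rfl, rfl⟩) h2.1 h3.2))
  · rcases heavy G2 G1 G3 h2.1 h2.2 with h3 | h3 | h3
    exacts [Or.inl h3.symm, Or.inr (Or.inr h3), Or.inr (Or.inl h3)]
  · rcases key G3 with h3 | h3 | h3
    · rcases heavy G3 G1 G2 h3.1 h3.2 with h5 | h5 | h5
      exacts [Or.inr (Or.inl h5.symm), Or.inr (Or.inr h5.symm), Or.inl h5]
    · exact Or.inr (Or.inr (light_eq h G2 G3 hpv (Or.inl ⟨rfl, rfl⟩) h2.1 h3.2))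
    · exact Or.inr (Or.inl (light_eq h G1 G3 hpv (Or.inr ⟨rfl, rfl⟩) h1.1 h3.2))
  · exact Or.inl (light_eq h G1 G2 hpv (Or.inr ⟨rfl, rfl⟩) h1.1 h2.2)

/-- a special end has four colours -/
theorem special_four (h : Irr U T) (G : GP T z v q a b c d g p) (hpv : p ∈ T v) :
    4 ≤ (T v).ncard := by
  have hn := G.nd
  simp only [List.nodup_cons, List.mem_cons, List.not_mem_nil, or_false, not_or, List.nodup_nil,
    and_true, not_false_eq_true] at hn
  obtain ⟨⟨ab, ac, ad, ag, ap⟩, ⟨bc, bd, bg, bp⟩, ⟨cd, cg, cp⟩, ⟨dg, dp⟩, gp⟩ := hn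
  have hsub := sub_of_closure h G.hv
  exact four_le (p := a) (q := b) (r := g) (t := p) (hsub (by simp)) (hsub (by simp)) G.gv hpv
    (by simp [ab, ag, ap, bg, bp, gp])

/-- **A special end has at most one complementary end** -/
theorem count_special (h : Irr U T) (hmn : Mn4 U T)
    (n54 : ∀ x y, dist x y = 1 → 4 ≤ (T x).ncard → (T y).ncard ≤ 4)
    (G : GP T z v q a b c d g p) (G' : GP T z v q' a b c d g p) (hpv : p ∈ T v)
    (nv : ∀ y, dist y v = 1 → T y ≠ {g, p})
    (hend : g ∉ T q ∨ St T z q {c, d} ∨ St T z v {a, b}) : q = q' := by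
  have h4 := special_four h G hpv
  obtain ⟨i, j, hi, hj, hT⟩ := G.four h (n54 v _ (by rw [dist_comm]; exact G.dwv) h4)
  obtain ⟨i', j', hi', hj', hT'⟩ := G'.four h (n54 v _ (by rw [dist_comm]; exact G'.dwv) h4)
  have hii := G.spec_i h hmn G' hi hj hi' hj' hT hT' hpv nv
  subst hii
  exact G.one_centre h hmn G' hi hj hj' hT hT' (fun _ => nv) (Or.inr hend)

/-- **An end has at most two complementary ends** -/
theorem count_two (h : Irr U T) (hmn : Mn4 U T)
    (n54 : ∀ x y, dist x y = 1 → 4 ≤ (T x).ncard → (T y).ncard ≤ 4) {q1 q2 q3 : ℂ}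
    (G1 : GP T z v q1 a b c d g p) (G2 : GP T z v q2 a b c d g p)
    (G3 : GP T z v q3 a b c d g p) (nv : p ∈ T v → ∀ y, dist y v = 1 → T y ≠ {g, p})
    (hend1 : p ∉ T v ∨ g ∉ T q1 ∨ St T z q1 {c, d} ∨ St T z v {a, b}) :
    q1 = q2 ∨ q1 = q3 ∨ q2 = q3 := by
  by_cases hpv : p ∈ T v
  · exact Or.inl (count_special h hmn n54 G1 G2 hpv (nv hpv) (hend1.resolve_left (not_not.2 hpv)))
  · exact count_clean h G1 G2 G3 hpv

end Vale.Agent.P032.H942
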