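import Vale.Agent.P032.H880.AbefF
import Vale.Agent.P032.H299.SpcV
import Vale.Agent.P032.H942.NoDB

/-!
# P032: the end of the hand part: a special end with three colours of the centre, or a tie

`K3 T`: a two-pair point `z` (pairs `ab | cd`) and a four coloured point `v` of the closure of its exact
`ab`-arcs which does not carry both missing colours of `z`.  `C1 T`: both missing colours of a two-pair
point `z` at two points of `S(z)` at distance one, one of them with four colours.  `gamV_of`: without `K3`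
and `C1` all two-pair points are `GamV` (clean ends, no ties); the only input is the cusp lemma `CuE`.
`k3_kinds`: the kinds of `K3`.
-/

open Set Filter Topology Metric

noncomputable section

namespace Vale.Agent.P032.H942

open Vale.Agent.P032.Six Vale.Agent.P032.S5.H767 Vale.Agent.P032.S5.H358 Vale.Agent.P032.S5.H349
open Vale.Agent.P032.H510 Vale.Agent.P032.H361 Vale.Agent.P032.H299

variable {U : Fin 6 → Set ℂ} {T : ℂ → Set (Fin 6)} {z v v' y : ℂ} {a b c d e f p q r s : Fin 6}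

/-- a special end which does not carry both missing colours -/
def K3 (T : ℂ → Set (Fin 6)) : Prop :=
  ∃ z a b c d v, DPt T z a b c d ∧ v ∈ closure (Ex T z {a, b}) ∧ (T v).ncard = 4 ∧ ¬ (T z)ᶜ ⊆ T v

/-- a tie -/
def C1 (T : ℂ → Set (Fin 6)) : Prop :=
  ∃ z a b c d y y', DPt T z a b c d ∧ dist y z = 1 ∧ dist y' z = 1 ∧ dist y y' = 1 ∧
    (T z)ᶜ ⊆ T y ∧ (T z)ᶜ ⊆ T y' ∧ (T y).ncard = 4

/-- the cusp lemma for all two-pair points -/
def Cusp (T : ℂ → Set (Fin 6)) : Prop :=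
  ∀ z a b c d e f, DPt T z a b c d → [a, b, c, d, e, f].Nodup → H821.CuE T z a b e f

theorem c1_adj (n54 : ∀ x y, dist x y = 1 → 4 ≤ (T x).ncard → (T y).ncard ≤ 4) (nC : ¬ C1 T)
    (hz : DPt T z a b c d) : H880.Adj T z := by
  intro y y' hy hy' hyy hs hs'
  by_contra h3
  have h4 := n54 z y (by rw [dist_comm]; exact hy) (by rw [DPt.card hz])
  exact nC ⟨z, a, b, c, d, y, y', hz, hy, hy', hyy, hs, hs', by omega⟩

/-- **No two-pair point among the `abef` ends** -/
theorem no_db (h : Irr U T) (n54 : ∀ x y, dist x y = 1 → 4 ≤ (T x).ncard → (T y).ncard ≤ 4)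
    (nK : ¬ K3 T) (nC : ¬ C1 T) (hz : DPt T z a b c d) (nd : [a, b, c, d, e, f].Nodup)
    (hcl : v ∈ closure (Ex T z {a, b})) (hv4 : (T v).ncard = 4) (hTv : T v = {a, b, e, f})
    (hv : DPt T v p q r s) : False := by
  have hvz := dist_of_closure hcl
  -- the case `ae | bf`
  have key : ∀ {a b c d e f : Fin 6}, DPt T z a b c d → [a, b, c, d, e, f].Nodup →
      v ∈ closure (Ex T z {a, b}) → T v = {a, b, e, f} → DPt T v a e b f → False := by
    intro a b c d e f hz nd hcl hTv hv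
    have C := ctr_of_dpt h hz nd
    have hc : ({e, f} : Set (Fin 6)) = (T z)ᶜ := ef_eq C
    have ho : ∀ {y}, (e ∈ T y ∧ f ∈ T y) ↔ (T z)ᶜ ⊆ T y := by
      intro y
      rw [← hc]
      constructor
      · rintro ⟨h1, h2⟩ i (rfl | h3)
        · exact h1
        · rw [mem_singleton_iff.1 h3]; exact h2
      · exact fun h1 => ⟨h1 (by simp), h1 (by simp)⟩
    obtain ⟨v', h1, h2, h3, h5⟩ := db_tie h hz nd hvz hTv hv
      (fun y hy => n54 z y (by rw [dist_comm]; exact hy) (by rw [DPt.card hz]))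
      (fun y hy hy4 => by
        rw [ho]
        by_contra hcon
        exact nK ⟨z, a, b, c, d, y, hz, hy, hy4, hcon⟩)
      (fun y hy hvy hef => by
        have h5 := c1_adj n54 nC hz v y hvz hy hvy (by
          rw [← hc, hTv]; rintro i (rfl | rfl) <;> simp) (ho.1 hef)
        omega)
    have ndv : [a, e, b, f, c, d].Nodup := by
      simp only [List.nodup_cons, List.mem_cons, List.not_mem_nil, or_false, not_or,
        List.nodup_nil, and_true, not_false_eq_true] at nd ⊢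
      obtain ⟨⟨ab, ac, ad, ae, af⟩, ⟨bc, bd, be, bf⟩, ⟨cd, ce, cf⟩, ⟨de, df⟩, ef⟩ := nd
      exact ⟨⟨ae, ab, af, ac, ad⟩, ⟨Ne.symm be, ef, Ne.symm ce, Ne.symm de⟩, ⟨bf, bc, bd⟩,
        ⟨Ne.symm cf, Ne.symm df⟩, cd⟩
    have hcv : ({c, d} : Set (Fin 6)) = (T v)ᶜ := ef_eq (ctr_of_dpt h hv ndv)
    have h6 := c1_adj n54 nC hv z v' (by rw [dist_comm]; exact hvz) h2
      (by rw [dist_comm]; exact h1) (by
        rw [← hcv, hz.pal]; rintro i (rfl | rfl) <;> simp) (by
        rw [← hcv]; rintro i (rfl | h7)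
        · exact h3
        · rw [mem_singleton_iff.1 h7]; exact h5)
    rw [DPt.card hz] at h6
    omega
  obtain ⟨⟨ab, ac, ad, ae, af⟩, ⟨bc, bd, be, bf⟩, ⟨cd, ce, cf⟩, ⟨de, df⟩, ef⟩ := nd_ne nd
  rcases dpt_cases hv hTv ab ae af be bf ef with h1 | h1 | h1
  · exact no_own_pair h hz h1 hcl
  · exact key hz nd hcl hTv h1
  · refine key (e := f) (f := e) hz ?_ hcl ?_ h1
    · exact (((((List.Perm.swap f e []).cons d).cons c).cons b).cons a).nodup_iff.1 nd
    · rw [hTv, Set.pair_comm e f]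

/-- the four coloured points of the closure of the exact `ab`-arcs -/
theorem end_pal (nK : ¬ K3 T) (hz : DPt T z a b c d) (C : Ctr U T z a b c d e f)
    (hcl : y ∈ closure (Ex T z {a, b})) (hy4 : (T y).ncard = 4) : T y = {a, b, e, f} := by
  have h := C.irr
  obtain ⟨⟨ab, ac, ad, ae, af⟩, ⟨bc, bd, be, bf⟩, ⟨cd, ce, cf⟩, ⟨de, df⟩, ef⟩ := C.sep
  have hc : ({e, f} : Set (Fin 6)) = (T z)ᶜ := ef_eq C
  have h1 : ({e, f} : Set (Fin 6)) ⊆ T y := by
    rw [hc]
    by_contra hcon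
    exact nK ⟨z, a, b, c, d, y, hz, hcl, hy4, hcon⟩
  have hsub := sub_of_closure h hcl
  symm
  refine Set.eq_of_subset_of_ncard_le ?_ ?_ (Set.toFinite _)
  · rintro i (rfl | rfl | rfl | h2)
    · exact hsub (by simp)
    · exact hsub (by simp)
    · exact h1 (by simp)
    · rw [mem_singleton_iff.1 h2]; exact h1 (by simp)
  · rw [hy4, Set.ncard_insert_of_notMem (by simp [ab, ae, af]) (Set.toFinite _),
      Set.ncard_insert_of_notMem (by simp [be, bf]) (Set.toFinite _), Set.ncard_pair ef]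

/-- all points of the closure are harmless -/
theorem end_hm (h : Irr U T) (hmn : Mn U T)
    (n54 : ∀ x y, dist x y = 1 → 4 ≤ (T x).ncard → (T y).ncard ≤ 4) (nK : ¬ K3 T) (nC : ¬ C1 T)
    (hz : DPt T z a b c d) (nd : [a, b, c, d, e, f].Nodup) (hcl : y ∈ closure (Ex T z {a, b})) :
    H642.Hm T a b e f y := by
  have C := ctr_of_dpt h hz nd
  have h4 : (T y).ncard ≤ 4 :=
    n54 z y (by rw [dist_comm]; exact dist_of_closure hcl) (by rw [DPt.card hz])
  by_cases h3 : (T y).ncard ≤ 3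
  · exact Or.inl h3
  have hy4 : (T y).ncard = 4 := by omega
  have hT := end_pal nK hz C hcl hy4
  refine H821.hm_of h hmn ?_ hcl h4 hT.le fun _ p q r s hv => ?_
  · obtain ⟨⟨ab, ac, ad, ae, af⟩, ⟨bc, bd, be, bf⟩, ⟨cd, ce, cf⟩, ⟨de, df⟩, ef⟩ := C.sep
    simp [ab, ae, af, be, bf, ef]
  · exact no_db h n54 nK nC hz nd hcl hy4 hT hv

/-- **All two-pair points are `GamV`** -/
theorem gamV_of (h : Irr U T) (hmn : Mn U T)
    (n54 : ∀ x y, dist x y = 1 → 4 ≤ (T x).ncard → (T y).ncard ≤ 4) (hCu : Cusp T)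
    (nK : ¬ K3 T) (nC : ¬ C1 T) (hz : DPt T z a b c d) : GamV T z := by
  obtain ⟨e, f, nd⟩ := hz.exists_nodup
  have C := ctr_of_dpt h hz nd
  have nd' : [c, d, a, b, e, f].Nodup := C.swapAC.nd
  obtain ⟨p1, hp1⟩ := hz.arc1
  obtain ⟨p2, hp2⟩ := hz.arc2
  have key := H880.no_special_n54 h hmn n54 C ⟨p1, hp1⟩ ⟨p2, hp2⟩
    (fun y hy => end_hm h hmn n54 nK nC hz nd hy)
    (fun y hy => end_hm h hmn n54 nK nC hz.swap nd' hy) (c1_adj n54 nC hz)
    (hCu _ _ _ _ _ _ _ hz nd) (hCu _ _ _ _ _ _ _ hz.swap nd')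
  refine ⟨fun P hP hP2 y hy => ?_, c1_adj n54 nC hz⟩
  obtain ⟨q, hq⟩ := closure_nonempty_iff.1 ⟨y, hy⟩
  rcases ex_cases C hP hq with rfl | rfl
  · exact key y (Or.inl hy)
  · exact key y (Or.inr hy)

/-- **The kinds of `K3`**: after renaming `a` is inside at `v` and `v` is of kind `abce` (harmless, D2
`ac | be`, D1 `bc | ae`, mutual) or `abcd` (harmless, BETA `ac | bd`, mutual) -/
theorem k3_kinds (h : Irr U T) (hmn : Mn U T) (hK : K3 T) :
    ∃ z v a b c d e f, EndK U T z v a b c d e f ∧ (K24 T z v a b c e ∨ K23 T z v a b c d) := by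
  obtain ⟨z, a, b, c, d, v, hz, hcl, hv4, hns⟩ := hK
  obtain ⟨a', b', c', d', e', f', K, h1 | h1⟩ := end_kinds h hmn hz hcl hv4
  · exfalso
    apply hns
    rw [← ef_eq (ctr_of_dpt h K.dpt K.nd), h1.1]
    rintro i (rfl | rfl) <;> simp
  · exact ⟨z, v, a', b', c', d', e', f', K, h1⟩

end Vale.Agent.P032.H942
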