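import Vale.Agent.P032.S5.H358.NoSpec

/-!
# P032: a two-pair centre with a special four coloured point

The circle of a two-pair centre `z` may carry four coloured points `y` with exactly one missing colour
of `z` which are not on the closure of the exact arcs (`y` is then inside a run of this colour): the
network argument still works.  `GamC`: what is needed of the circle.  `no_D_of_gam`: if all circles of
two-pair centres are `GamC` then there is no two-pair centre.  `exists_special`: if there is a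
two-pair centre then there is one with a point of more than three colours of one of three special
kinds on its circle.
-/

open Set Filter Topology Metric

noncomputable section

namespace Vale.Agent.P032.H942

open Vale.Agent.P032.Six Vale.Agent.P032.Words Vale.Agent.P032.S5.H767 Vale.Agent.P032.S5.H349
open Vale.Agent.P032.Net.H672 Vale.Agent.P032.S5.H358

variable {U : Fin 6 → Set ℂ} {T : ℂ → Set (Fin 6)} {X : Set (Fin 6)} {z v q q' m : ℂ}
  {a b c d e f : Fin 6}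

/-- the points of the circle of `z` with more than three colours carry an exact pair of `z` and the
two missing colours, or are inside a run of a missing colour -/
def PtG (T : ℂ → Set (Fin 6)) (z : ℂ) : Prop :=
  ∀ y, dist y z = 1 → (T y).ncard ≤ 3 ∨ (∃ P, P ⊆ T z ∧ P.ncard = 2 ∧ (∃ p, Arc T z p P) ∧
    T y = P ∪ (T z)ᶜ) ∨ ∃ x, x ∉ T z ∧ ∀ᶠ q in 𝓝[sphere z 1] y, x ∈ T q

/-- a good circle -/
def GoodG (U : Fin 6 → Set ℂ) (T : ℂ → Set (Fin 6)) (z : ℂ) : Prop := OkC U T z ∧ PtG T z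

theorem goodG_of_ee (h : Irr U T) (hK : ∀ z a b c d, DPt T z a b c d → GoodG U T z)
    (hv : EE T z v) : GoodG U T z := by
  obtain ⟨a, b, c, d, h1, h2⟩ := hv.names
  exact hK z a b c d (hv.dpt h h1 h2)

/-- **the common point**: a point inside a run of a missing colour of `w` is not on the circle of a
centre `w'` with `T w ∪ T w'` all colours -/
theorem run_false (h : Irr U T) {w w' m : ℂ} (hne : w ≠ w') (hcov : ∀ i, i ∈ T w ∨ i ∈ T w')
    (hmw : dist m w = 1) (hmw' : dist m w' = 1) (hne2 : w + w' ≠ 2 * m) {x : Fin 6}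
    (hx : x ∉ T w) (hr : ∀ᶠ q in 𝓝[sphere w 1] m, x ∈ T q) : False := by
  have hxw' : x ∈ T w' := (hcov x).resolve_left hx
  refine line_free h hmw hr hmw' hne.symm ?_ (h.sub _ hxw')
  intro h1
  exact hne2 (by rw [← h1, add_comm])

/-- the field `common` -/
theorem common_g (h : Irr U T) (hK : ∀ z a b c d, DPt T z a b c d → GoodG U T z)
    {w v q w' v' q' m : ℂ} (e1 : EE T w v) (e3 : T q = (T v)ᶜ)
    (e1' : EE T w' v') (e3' : T q' = (T v')ᶜ) (hne : w ≠ w') (hcov : ∀ i, i ∈ T w ∨ i ∈ T w')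
    (hmw : dist m w = 1) (hmw' : dist m w' = 1) (hne2 : w + w' ≠ 2 * m)
    (hs : (T v ∩ T w ∩ T w').ncard = 1) (hs' : (T v' ∩ T w' ∩ T w).ncard = 1) :
    (T m).ncard = 3 ∧
      (T m ∩ T w = T v ∩ T w ∨ T m ∩ T w = T q ∩ T w) ∧
      (T m ∩ T w' = T v' ∩ T w' ∨ T m ∩ T w' = T q' ∩ T w') := by
  refine e1.common h e3 e1' e3' hne hcov hmw hmw' hne2 hs hs' ?_
  rcases (goodG_of_ee h hK e1).2 m hmw with h3 | ⟨P, hPw, hP2, ⟨p, hp⟩, hTm⟩ | ⟨x, hx, hr⟩
  · exact h3
  swap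
  · exact (run_false h hne hcov hmw hmw' hne2 hx hr).elim
  rcases (goodG_of_ee h hK e1').2 m hmw' with h3 | ⟨P', hPw', hP2', ⟨p', hp'⟩, hTm'⟩ | ⟨x, hx, hr⟩
  · exact h3
  swap
  · exact (run_false h hne.symm (fun i => (hcov i).symm) hmw' hmw
      (by rw [add_comm]; exact hne2) hx hr).elim
  exfalso
  -- `(T w')ᶜ ⊆ P`
  have c1 : (T w')ᶜ ⊆ P := by
    intro i hi
    have h5 : i ∈ T m := by rw [hTm']; exact Or.inr hi
    rw [hTm] at h5
    rcases h5 with h5 | h5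
    · exact h5
    · rcases hcov i with h6 | h6
      · exact absurd h6 h5
      · exact absurd h6 hi
  have n1 : (T w')ᶜ.ncard = 2 := by
    have h5 := Set.ncard_add_ncard_compl (T w')
    rw [Nat.card_eq_fintype_card, Fintype.card_fin, e1'.card_z] at h5
    omega
  have c2 : (T w')ᶜ = P := Set.eq_of_subset_of_ncard_le c1 (by omega) (Set.toFinite _)
  have hPd : (P ∩ T w').ncard = 0 := by
    rw [← c2, compl_inter_self, Set.ncard_empty]
  -- two common colours
  have hun : T w ∪ T w' = univ := eq_univ_of_forall hcov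
  have hcard : (T w ∩ T w').ncard = 2 := by
    have h1 := Set.ncard_union_add_ncard_inter (T w) (T w') (Set.toFinite _) (Set.toFinite _)
    rw [hun, Set.ncard_univ, Nat.card_eq_fintype_card, Fintype.card_fin, e1.card_z,
      e1'.card_z] at h1
    omega
  rcases pair_of_arc h e1 hPw hp with h5 | h5
  · rw [h5, inter_comm (T w) (T v)] at hPd
    omega
  · have h6 : (T w ∩ T w') = (T v ∩ T w ∩ T w') ∪ (P ∩ T w') := by
      rw [h5]
      ext i
      simp only [mem_inter_iff, mem_union, Set.mem_sdiff]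
      tauto
    have h7 := Set.ncard_union_le (T v ∩ T w ∩ T w') (P ∩ T w')
    rw [← h6] at h7
    omega

/-- the network -/
theorem net_g (h : Irr U T) (h4 : ∀ z, (T z).ncard ≤ 4)
    (hK : ∀ z a b c d, DPt T z a b c d → GoodG U T z) (X : Set (Fin 6)) :
    Vale.Agent.P032.Net.H672.Net (fun z v => EE T z v ∧ T v = X)
      (fun z q => EE T z q ∧ T q = Xᶜ) := by
  have hX3 : ∀ {z v}, EE T z v ∧ T v = X → X.ncard = 3 := by
    rintro z v ⟨h1, rfl⟩; exact h1.card_v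
  have hX3' : ∀ {z v}, EE T z v ∧ T v = Xᶜ → X.ncard = 3 := by
    rintro z v ⟨h1, h2⟩
    have h3 := h1.card_v
    rw [h2] at h3
    have := Set.ncard_add_ncard_compl X
    rw [Nat.card_eq_fintype_card, Fintype.card_fin] at this
    omega
  have hc : ∀ {z v z' q}, EE T z v ∧ T v = X → EE T z' q ∧ T q = Xᶜ → T q = (T v)ᶜ := by
    rintro z v z' q ⟨-, h1⟩ ⟨-, h2⟩
    rw [h1, h2]
  have hc' : ∀ {z v z' q}, EE T z v ∧ T v = X → EE T z' q ∧ T q = Xᶜ → T v = (T q)ᶜ := by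
    rintro z v z' q ⟨-, h1⟩ ⟨-, h2⟩
    rw [h1, h2, compl_compl]
  have back : ∀ {z v q v'}, EE T z v ∧ T v = X → EE T z q ∧ T q = Xᶜ → En T X z v' →
      EE T z v' ∧ T v' = X := fun hv hq hv' =>
    ⟨hv'.ee (hX3 hv) (hv.1.arc_compl hv.2), hv'.1⟩
  have back' : ∀ {z v q v'}, EE T z v ∧ T v = X → EE T z q ∧ T q = Xᶜ → En T Xᶜ z v' →
      EE T z v' ∧ T v' = Xᶜ := fun hv hq hv' =>
    ⟨hv'.ee (ncard_compl_three (hX3 hv)) (hq.1.arc_compl hq.2), hv'.1⟩
  have h3 : ∀ {z v}, EE T z v → OkC U T z := fun hv => (goodG_of_ee h hK hv).1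
  have hcl : ∀ {z v q}, EE T z v ∧ T v = X → EE T z q ∧ T q = Xᶜ → ∀ m, dist m z = 1 →
      T m = X ∨ T m = Xᶜ → Vale.Agent.P032.S5.H349.Cln T z m := by
    rintro z v q hv hq m hm (h5 | h5)
    · exact hv.1.cln h h4 hq.1 (hc hv hq) hm (h5.trans hv.2.symm)
    · exact hq.1.cln h h4 hv.1 (hc' hv hq) hm (h5.trans hq.2.symm)
  refine
    { dist_t := fun hv => hv.1.dist
      dist_c := fun hq => hq.1.dist
      ne := fun {z z' v} hv hq => ?_
      rh := fun {z v q} hv hq => ⟨⟨hv.1.rh h h4 hq.1 (hc hv hq), hv.2⟩,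
        ⟨hv.1.rh' h h4 hq.1 (hc hv hq), hq.2⟩⟩
      three_t := ?_
      three_c := ?_
      sep := ?_
      L2 := ?_
      L3 := ?_
      L3' := ?_ }
  · have h5 := (hv.1.en hv.2).ne (hX3 hv) (hq.1.en hq.2)
    exact h5 rfl
  · rintro v z₁ z₂ z₃ z₄ ⟨a1, q1, b1⟩ ⟨a2, q2, b2⟩ ⟨a3, q3, b3⟩ ⟨a4, q4, b4⟩
    exact h.en_three (hX3 a1) ⟨a1.1.en a1.2, q1, b1.1.en b1.2⟩ ⟨a2.1.en a2.2, q2, b2.1.en b2.2⟩
      ⟨a3.1.en a3.2, q3, b3.1.en b3.2⟩ ⟨a4.1.en a4.2, q4, b4.1.en b4.2⟩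
  · rintro q z₁ z₂ z₃ z₄ ⟨a1, q1, b1⟩ ⟨a2, q2, b2⟩ ⟨a3, q3, b3⟩ ⟨a4, q4, b4⟩
    have e : ∀ {z v}, EE T z v ∧ T v = X → En T Xᶜᶜ z v := fun hv =>
      hv.1.en (by rw [compl_compl]; exact hv.2)
    exact h.en_three (X := Xᶜ) (ncard_compl_three (hX3' a1))
      ⟨a1.1.en a1.2, q1, e b1⟩ ⟨a2.1.en a2.2, q2, e b2⟩
      ⟨a3.1.en a3.2, q3, e b3⟩ ⟨a4.1.en a4.2, q4, e b4⟩
  · rintro z v₁ v₂ q₁ q₂ hv₁ hv₂ hq₁ hq₂
    have e : ∀ {v q}, EE T z v ∧ T v = X → EE T z q ∧ T q = Xᶜ → T v ∩ T z = T z \ T q := by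
      rintro v q ⟨-, h1⟩ ⟨-, h2⟩
      rw [h1, h2, Set.sdiff_compl, inter_comm]
    have l1 := hq₁.1.lp2 h hv₁.1 hv₂.1 (e hv₁ hq₁) (e hv₂ hq₁)
    have l2 := hq₂.1.lp2 h hv₁.1 hv₂.1 (e hv₁ hq₂) (e hv₂ hq₂)
    have nz : ∀ {v q}, EE T z v ∧ T v = X → EE T z q ∧ T q = Xᶜ →
        cr (q - z) (v - z) ≠ 0 := by
      intro v q hv hq
      refine cr_ne_of hq.1.dist hv.1.dist ((hv.1.en hv.2).ne (hX3 hv) (hq.1.en hq.2)).symm ?_
      rw [add_comm]
      exact hv.1.anti h hq.1 (hc hv hq)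
    have n11 := nz hv₁ hq₁
    have n21 := nz hv₂ hq₁
    have n12 := nz hv₁ hq₂
    have n22 := nz hv₂ hq₂
    have hP : (0 < cr (q₁ - z) (v₁ - z) * cr (q₁ - z) (v₂ - z)) ↔
        0 < cr (q₂ - z) (v₁ - z) * cr (q₂ - z) (v₂ - z) := l1.symm.trans l2
    have hpos : 0 < (cr (q₁ - z) (v₁ - z) * cr (q₁ - z) (v₂ - z)) *
        (cr (q₂ - z) (v₁ - z) * cr (q₂ - z) (v₂ - z)) := by
      rcases lt_or_gt_of_ne (mul_ne_zero n11 n21) with h5 | h5
      · rcases lt_or_gt_of_ne (mul_ne_zero n12 n22) with h6 | h6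
        · exact mul_pos_of_neg_of_neg h5 h6
        · exact absurd (hP.2 h6) (not_lt.2 h5.le)
      · exact mul_pos h5 (hP.1 h5)
    refine hpos.trans_le (le_of_eq ?_)
    unfold cr Vale.Agent.P032.Net.H672.dt
    ring
  · intro z v q hv hq
    rcases L2_ok h (hX3 hv) (h3 hv.1) (hv.1.pairs h hv.2) (hcl hv hq) (hv.1.en hv.2)
      (hq.1.en hq.2) with ⟨v', h5, h6⟩ | ⟨q', h5, h6⟩
    · exact Or.inl ⟨v', h5, back hv hq h6⟩
    · exact Or.inr ⟨q', h5, back' hv hq h6⟩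
  · intro z v q q' hv hq hq' hne hu1 hu2
    exact L3_ok h (hX3 hv) (h3 hv.1) (hv.1.pairs h hv.2) (hcl hv hq) (hv.1.en hv.2)
      (hq.1.en hq.2) (hq'.1.en hq'.2) hne (fun v' h5 => hu1 v' (back hv hq h5))
      (fun p h5 => hu2 p (back' hv hq h5))
  · intro z q v v' hq hv hv' hne hu1 hu2
    have e : ∀ {z v}, EE T z v ∧ T v = X → T v = Xᶜᶜ := fun hv => by
      rw [compl_compl]; exact hv.2
    refine L3_ok (X := Xᶜ) h (ncard_compl_three (hX3 hv)) (h3 hv.1) (hq.1.pairs h hq.2) ?_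
      (hq.1.en hq.2) (hv.1.en (e hv)) (hv'.1.en (e hv')) hne
      (fun v' h5 => hu1 v' (back' hv hq h5))
      (fun p h5 => hu2 p (back hv hq (by rw [compl_compl] at h5; exact h5)))
    intro m hm h5
    refine hcl hv hq m hm ?_
    rw [compl_compl] at h5
    exact h5.symm

/-- the arc fields -/
theorem arcFields_g (h : Irr U T) (h4 : ∀ z, (T z).ncard ≤ 4)
    (hK : ∀ z a b c d, DPt T z a b c d → GoodG U T z) : ArcFields U T (AA T) where
  arc_ex := by
    rintro z v ⟨hv, q, hq, hc⟩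
    exact arc_ex_ok h (goodG_of_ee h hK hv).1 hv hq hc
  arc_end := EE.fld_end
  arc_pair := EE.fld_pair
  arc_len := EE.fld_len h h4
  arc_uniq := EE.fld_uniq h h4
  arc_symm := EE.fld_symm
  arc_ori := EE.fld_ori h h4
  arc_inn := EE.fld_inn h

/-- the network with palettes -/
theorem dnet_g (h : Irr U T) (h4 : ∀ z, (T z).ncard ≤ 4)
    (hK : ∀ z a b c d, DPt T z a b c d → GoodG U T z) :
    DNet T (EE T) (AA T) (ore T) (inn U T) where
  net := net_g h h4 hK
  card_z := fun hv => hv.card_z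
  card_v := fun hv => hv.card_v
  card_i := fun hv => hv.card_i'
  cov := fun hv hq hc => hv.cov h h4 hq hc
  ori := fun {z v} _ => ore_or T z v
  inn_mem := fun hv => hv.inn_mem h
  LP1 := fun hv hq hc => hv.lp1 h h4 hq hc
  LP2 := fun hq hv hv' h1 h2 => hq.1.lp2 h hv.1 hv'.1 h1 h2
  LP3 := fun hv hq hc hv' hp hc' hcz hcw => hv.lp3 h h4 hq hc hv' hp hc' hcz hcw
  arc_ex := (arcFields_g h h4 hK).arc_ex
  arc_end := EE.fld_end
  arc_pair := EE.fld_pair
  arc_len := EE.fld_len h h4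
  arc_uniq := EE.fld_uniq h h4
  arc_symm := EE.fld_symm
  arc_ori := EE.fld_ori h h4
  arc_inn := EE.fld_inn h
  auto := fun hv hq hc hm hTm => hv.auto h h4 hq hc hm hTm
  common := fun e1 _ e3 e1' _ e3' hne hcv d d' n s s' =>
    common_g h hK e1 e3 e1' e3' hne hcv d d' n s s'
  lemX := fun hu' hpu hpr ht hT => hu'.lemX h hpu hpr ht hT

/-- **No two-pair centre**, good circles -/
theorem no_D_of_goodG (h : Irr U T) (h4 : ∀ z, (T z).ncard ≤ 4)
    (hK : ∀ z a b c d, DPt T z a b c d → GoodG U T z) :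
    ∀ z a b c d, DPt T z a b c d → False := by
  intro z a b c d hz
  obtain ⟨v, q, hv, hq, hc⟩ := start_ok h h4 hz (hK z a b c d hz).1
  exact (dnet_g h h4 hK).false hv hq hc

/-! ### the circle -/

/-- what is needed of the circle of a two-pair centre: the points of the closures of the exact arcs
have at most three colours (no special ends); a point with more than three colours and with both
missing colours has an exact pair of `z` besides them; no such point at distance one of another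
point of the circle with both missing colours -/
structure GamC (T : ℂ → Set (Fin 6)) (z : ℂ) : Prop where
  ends : ∀ P : Set (Fin 6), P ⊆ T z → P.ncard = 2 → ∀ y, y ∈ closure (Ex T z P) →
    (T y).ncard ≤ 3
  two : ∀ y, dist y z = 1 → (T z)ᶜ ⊆ T y → 4 ≤ (T y).ncard →
    ∃ P, P ⊆ T z ∧ P.ncard = 2 ∧ (∃ p, Arc T z p P) ∧ T y = P ∪ (T z)ᶜ
  adj : ∀ y y', dist y z = 1 → dist y' z = 1 → dist y y' = 1 → (T z)ᶜ ⊆ T y → (T z)ᶜ ⊆ T y' →
    (T y).ncard ≤ 3

/-- the two palettes of exact arcs -/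
theorem ex_cases (C : Ctr U T z a b c d e f) {P : Set (Fin 6)} (hP : P ⊆ T z) {y : ℂ}
    (hy : y ∈ Ex T z P) : P = {a, b} ∨ P = {c, d} := by
  have h1 := ex_self hy
  rcases C.pairs y hy.1 (by rw [h1]; exact hy.2) (by rw [h1]; exact hP) with h2 | h2
  · left; rw [← h1, h2]
  · right; rw [← h1, h2]

/-- points with a pair letter -/
theorem le_of_pair_g (C : Ctr U T z a b c d e f) (K : GamC T z) {y : ℂ} {l : Fin 4}
    (hl : y ∈ Lt T z a b c d e f l) (h2 : 2 ≤ l.val) : (T y).ncard ≤ 3 := by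
  obtain ⟨⟨ab, ac, ad, ae, af⟩, ⟨bc, bd, be, bf⟩, ⟨cd, ce, cf⟩, ⟨de, df⟩, ef⟩ := C.sep
  fin_cases l
  · exact absurd h2 (by decide)
  · exact absurd h2 (by decide)
  · refine K.ends {a, b} ?_ (Set.ncard_pair ab) y hl
    rw [C.pal]; rintro i (rfl | rfl) <;> simp
  · refine K.ends {c, d} ?_ (Set.ncard_pair cd) y hl
    rw [C.pal]; rintro i (rfl | rfl) <;> simp

/-- a double contact at a point with the palette `{a, b, e, f}`: the neighbours do not carry `A` -/
theorem noA_g (C : Ctr U T z a b c d e f) {y y' y'' : ℂ} {l m : Fin 4} (hlm : l ≠ m)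
    (hl2 : l.val < 2) (hm2 : m.val < 2)
    (hyy : dist y y' = 1) (hyy' : dist y y'' = 1) (hne : y'' ≠ y') (hne2 : y'' + y' ≠ 2 * y)
    (hT : T y = {a, b, e, f}) (h3 : (T y').ncard ≤ 3)
    (hl' : y' ∈ Lt T z a b c d e f l) (hm' : y'' ∈ Lt T z a b c d e f m) :
    y' ∉ Lt T z a b c d e f 2 := by
  intro h2
  have k2 : ({a, b} : Set (Fin 6)) ⊆ T y' := sub_of_closure C.irr h2
  have hf := fc_three C.irr h3
  rcases val_lt_two hl2 hm2 hlm with ⟨rfl, rfl⟩ | ⟨rfl, rfl⟩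
  · rcases lemmaF C.irr hyy hf (t := f) (by
      rw [hT]
      rintro i (rfl | rfl | rfl | rfl)
      · exact Or.inr (k2 (Or.inl rfl))
      · exact Or.inr (k2 (Or.inr rfl))
      · exact Or.inr hl'.2
      · exact Or.inl rfl) hyy' (C.irr.sub _ hm'.2) with h | h
    · exact hne h
    · exact hne2 h
  · rcases lemmaF C.irr hyy hf (t := e) (by
      rw [hT]
      rintro i (rfl | rfl | rfl | rfl)
      · exact Or.inr (k2 (Or.inl rfl))
      · exact Or.inr (k2 (Or.inr rfl))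
      · exact Or.inl rfl
      · exact Or.inr hl'.2) hyy' (C.irr.sub _ hm'.2) with h | h
    · exact hne h
    · exact hne2 h

/-- **(dbl), (three)** -/
theorem dbl_g (C : Ctr U T z a b c d e f) (K : GamC T z) {y y' y'' : ℂ} {l m : Fin 4}
    (hlm : l ≠ m) (hyy : dist y y' = 1) (hyy' : dist y y'' = 1) (hne : y'' ≠ y')
    (hne2 : y'' + y' ≠ 2 * y)
    (hl : y ∈ Lt T z a b c d e f l) (hl' : y' ∈ Lt T z a b c d e f l)
    (hm : y ∈ Lt T z a b c d e f m) (hm' : y'' ∈ Lt T z a b c d e f m) :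
    (l.val < 2 ∧ m.val < 2) ∧
      ¬ (y' ∈ Lt T z a b c d e f 2 ∧ y'' ∈ Lt T z a b c d e f 3) ∧
      ¬ (y' ∈ Lt T z a b c d e f 3 ∧ y'' ∈ Lt T z a b c d e f 2) := by
  obtain ⟨⟨ab, ac, ad, ae, af⟩, ⟨bc, bd, be, bf⟩, ⟨cd, ce, cf⟩, ⟨de, df⟩, ef⟩ := C.sep
  have hne' : y' ≠ y'' := hne.symm
  have hne2' : y' + y'' ≠ 2 * y := by rw [add_comm]; exact hne2
  have hy := Lt_dist hl
  have hy' := Lt_dist hl'
  have hy'' := Lt_dist hm'
  have kl := Lt_col C.irr hl
  have kl' := Lt_col C.irr hl'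
  have km := Lt_col C.irr hm
  have km' := Lt_col C.irr hm'
  have e23 : ∀ n : Fin 4, ¬ n.val < 2 → n = 2 ∨ n = 3 := by decide
  have hl2 : l.val < 2 := by
    by_contra hcon
    have h3 := le_of_pair_g C K hl (not_lt.1 hcon)
    have h3' := le_of_pair_g C K hl' (not_lt.1 hcon)
    rcases e23 l hcon with rfl | rfl
    · exact C.dblPair hlm hyy hyy' hne hne2 h3 h3' ab hy hy' (kl (Or.inl rfl)) (kl (Or.inr rfl))
        (kl' (Or.inl rfl)) (kl' (Or.inr rfl)) (fun h => C.ne_col hlm (Or.inl rfl) h rfl)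
        (fun h => C.ne_col hlm (Or.inr rfl) h rfl) hm hm'
    · exact C.dblPair hlm hyy hyy' hne hne2 h3 h3' cd hy hy' (kl (Or.inl rfl)) (kl (Or.inr rfl))
        (kl' (Or.inl rfl)) (kl' (Or.inr rfl)) (fun h => C.ne_col hlm (Or.inl rfl) h rfl)
        (fun h => C.ne_col hlm (Or.inr rfl) h rfl) hm hm'
  have hm2 : m.val < 2 := by
    by_contra hcon
    have h3 := le_of_pair_g C K hm (not_lt.1 hcon)
    have h3'' := le_of_pair_g C K hm' (not_lt.1 hcon)
    rcases e23 m hcon with rfl | rfl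
    · exact C.dblPair hlm.symm hyy' hyy hne' hne2' h3 h3'' ab hy hy'' (km (Or.inl rfl))
        (km (Or.inr rfl)) (km' (Or.inl rfl)) (km' (Or.inr rfl))
        (fun h => C.ne_col hlm.symm (Or.inl rfl) h rfl)
        (fun h => C.ne_col hlm.symm (Or.inr rfl) h rfl) hl hl'
    · exact C.dblPair hlm.symm hyy' hyy hne' hne2' h3 h3'' cd hy hy'' (km (Or.inl rfl))
        (km (Or.inr rfl)) (km' (Or.inl rfl)) (km' (Or.inr rfl))
        (fun h => C.ne_col hlm.symm (Or.inl rfl) h rfl)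
        (fun h => C.ne_col hlm.symm (Or.inr rfl) h rfl) hl hl'
  refine ⟨⟨hl2, hm2⟩, ?_⟩
  have hef : e ∈ T y ∧ f ∈ T y := by
    rcases val_lt_two hl2 hm2 hlm with ⟨rfl, rfl⟩ | ⟨rfl, rfl⟩
    · exact ⟨hl.2, hm.2⟩
    · exact ⟨hm.2, hl.2⟩
  -- the neighbours carry `A` and `C`
  have key : ∀ i j : Fin 4, (i = 2 ∧ j = 3) ∨ (i = 3 ∧ j = 2) → y' ∈ Lt T z a b c d e f i →
      y'' ∈ Lt T z a b c d e f j → False := by
    intro i j hij k1 k2
    have hi2 : 2 ≤ i.val := by rcases hij with ⟨rfl, rfl⟩ | ⟨rfl, rfl⟩ <;> decide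
    have hj2 : 2 ≤ j.val := by rcases hij with ⟨rfl, rfl⟩ | ⟨rfl, rfl⟩ <;> decide
    have h3' := le_of_pair_g C K k1 hi2
    have h3'' := le_of_pair_g C K k2 hj2
    by_cases h3 : (T y).ncard ≤ 3
    · obtain ⟨-, x, hxz, -, hx', hx''⟩ := C.dbl hlm hyy hyy' hne hne2 h3 h3' h3'' hl hl' hm hm'
      have hx : x ∈ ({a, b} : Set (Fin 6)) ∨ x ∈ ({c, d} : Set (Fin 6)) := by
        rw [C.pal] at hxz
        rcases hxz with rfl | rfl | h
        · exact Or.inl (Or.inl rfl)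
        · exact Or.inl (Or.inr rfl)
        · exact Or.inr h
      rcases hij with ⟨rfl, rfl⟩ | ⟨rfl, rfl⟩
      · rcases hx with h | h
        · exact hx' (sub_of_closure C.irr (P := {a, b}) k1 h)
        · exact hx'' (sub_of_closure C.irr (P := {c, d}) k2 h)
      · rcases hx with h | h
        · exact hx'' (sub_of_closure C.irr (P := {a, b}) k2 h)
        · exact hx' (sub_of_closure C.irr (P := {c, d}) k1 h)
    · have hsub : (T z)ᶜ ⊆ T y := by
        rw [← ef_eq C]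
        rintro i (rfl | rfl)
        exacts [hef.1, hef.2]
      obtain ⟨P, hP, -, ⟨p, hp⟩, hTy⟩ := K.two y hy hsub (by omega)
      rcases ex_cases C hP (show p ∈ Ex T z P from hp) with rfl | rfl
      · -- `T y = {a, b, e, f}`
        have hT : T y = {a, b, e, f} := by rw [hTy, ← ef_eq C, four_eq]
        rcases hij with ⟨rfl, rfl⟩ | ⟨rfl, rfl⟩
        · exact noA_g C hlm hl2 hm2 hyy hyy' hne hne2 hT h3' hl' hm' k1
        · exact noA_g C hlm.symm hm2 hl2 hyy' hyy hne' hne2' hT h3'' hm' hl' k2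
      · -- `T y = {c, d, e, f}`
        have hT : T y = {c, d, e, f} := by rw [hTy, ← ef_eq C, four_eq]
        have sw : ∀ {w : ℂ} {n : Fin 4}, w ∈ Lt T z a b c d e f n →
            w ∈ Lt T z c d a b e f (Equiv.swap 2 3 n) := by
          intro w n hw
          rw [Ctr.lt_swap, Equiv.swap_apply_self]; exact hw
        have sv : ∀ n : Fin 4, n.val < 2 → (Equiv.swap (2 : Fin 4) 3 n).val < 2 := by decide
        have inj : ∀ {n n' : Fin 4}, n ≠ n' → Equiv.swap (2 : Fin 4) 3 n ≠ Equiv.swap 2 3 n' :=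
          fun hnn h => hnn ((Equiv.swap 2 3).injective h)
        rcases hij with ⟨rfl, rfl⟩ | ⟨rfl, rfl⟩
        · exact noA_g C.swapAC (inj hlm.symm) (sv m hm2) (sv l hl2) hyy' hyy hne' hne2' hT h3''
            (sw hm') (sw hl') (sw k2)
        · exact noA_g C.swapAC (inj hlm) (sv l hl2) (sv m hm2) hyy hyy' hne hne2 hT h3'
            (sw hl') (sw hm') (sw k1)
  exact ⟨fun h => key 2 3 (Or.inl ⟨rfl, rfl⟩) h.1 h.2, fun h => key 3 2 (Or.inr ⟨rfl, rfl⟩) h.1 h.2⟩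

/-- **The word** -/
theorem rawT_gam (C : Ctr U T z a b c d e f) (K : GamC T z) : RawT (Xs T z a b c d e f) := by
  have hp : ∀ (u : ℝ) (l : Fin 4), 2 ≤ l.val → u ∈ Xs T z a b c d e f l →
      (T (pt z u)).ncard ≤ 3 := fun u l hl hu => le_of_pair_g C K hu hl
  refine ⟨C.x_closed, C.x_cover, C.x_per, ?_, ?_, ?_, fun u l h h' => C.x_own h h',
    fun u l h h' => C.x_own' h h', ?_, ?_, ?_⟩
  · exact fun u h => C.x_anti (hp u 2 (by decide) h) h
  · exact fun u h => C.x_ac (hp u 2 (by decide) h) h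
  · intro u l m n hl hm hn
    by_cases h2 : 2 ≤ l.val ∨ 2 ≤ m.val ∨ 2 ≤ n.val
    · have h3 : (T (pt z u)).ncard ≤ 3 := by
        rcases h2 with h2 | h2 | h2
        exacts [hp u l h2 hl, hp u m h2 hm, hp u n h2 hn]
      exact C.x_two h3 hl hm hn
    · push Not at h2
      have key : ∀ l m n : Fin 4, l.val < 2 → m.val < 2 → n.val < 2 → l = m ∨ m = n ∨ n = l := by
        decide
      exact key l m n h2.1 h2.2.1 h2.2.2
  · intro u l m h1 h2 h4 h5
    by_contra hlm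
    by_cases hl2 : 2 ≤ l.val
    · exact hlm (C.x_swap (hp u l hl2 h1) (hp _ l hl2 h2) h1 h2 h4 h5)
    by_cases hm2 : 2 ≤ m.val
    · exact hlm (C.x_swap (hp u m hm2 h4) (hp _ m hm2 h5) h1 h2 h4 h5)
    push Not at hl2 hm2
    have hef : ∀ w : ℝ, w ∈ Xs T z a b c d e f l → w ∈ Xs T z a b c d e f m →
        (T z)ᶜ ⊆ T (pt z w) := by
      intro w k1 k2
      rw [← ef_eq C]
      rcases val_lt_two hl2 hm2 hlm with ⟨rfl, rfl⟩ | ⟨rfl, rfl⟩
      · rintro i (rfl | rfl)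
        exacts [k1.2, k2.2]
      · rintro i (rfl | rfl)
        exacts [k2.2, k1.2]
    have s1 := hef u h1 h4
    have s2 := hef (u + 1) h2 h5
    have t1 := K.adj _ _ (dist_pt z u) (dist_pt z (u + 1)) (dist_pt_one z u) s1 s2
    have t2 := K.adj _ _ (dist_pt z (u + 1)) (dist_pt z u)
      (by rw [dist_comm]; exact dist_pt_one z u) s2 s1
    exact hlm (C.x_swap t1 t2 h1 h2 h4 h5)
  · intro u l m hlm h1 h2 h4 h5
    obtain ⟨k1, k2⟩ := pt_off z u
    have e1 : u + 1 + 1 = u + 2 := by ring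
    have k3 := dist_pt_one z (u + 1)
    rw [e1] at k3
    exact (dbl_g C K hlm (by rw [dist_comm]; exact dist_pt_one z u) k3 k1 k2 h2 h1 h4 h5).1
  · intro u l m hlm h1 h2 h4 h5
    obtain ⟨k1, k2⟩ := pt_off z u
    have e1 : u + 1 + 1 = u + 2 := by ring
    have k3 := dist_pt_one z (u + 1)
    rw [e1] at k3
    exact (dbl_g C K hlm (by rw [dist_comm]; exact dist_pt_one z u) k3 k1 k2 h2 h1 h4 h5).2

/-- **a `GamC` circle is good** -/
theorem good_of_gam (h : Irr U T) (hz : DPt T z a b c d) (K : GamC T z) : GoodG U T z := by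
  obtain ⟨e, f, nd⟩ := hz.exists_nodup
  have C := ctr_of_dpt h hz nd
  refine ⟨⟨fun a' b' c' d' e' f' C' => rawT_gam C' K, K.ends⟩, fun y hy => ?_⟩
  by_cases h3 : (T y).ncard ≤ 3
  · exact Or.inl h3
  push Not at h3
  by_cases hsub : (T z)ᶜ ⊆ T y
  · exact Or.inr (Or.inl (K.two y hy hsub h3))
  · right; right
    -- one of the missing colours is not at `y`
    have main : ∀ {e f : Fin 6}, Ctr U T z a b c d e f → f ∉ T y →
        ∃ x, x ∉ T z ∧ ∀ᶠ q in 𝓝[sphere z 1] y, x ∈ T q := by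
      intro e f C hf
      have he : e ∉ T z := by
        have h1 : e ∈ (T z)ᶜ := by rw [← ef_eq C]; exact Or.inl rfl
        exact h1
      refine ⟨e, he, ?_⟩
      have n2 : y ∉ closure (Ex T z {a, b}) := fun h5 => by
        have := le_of_pair_g C K (l := 2) h5 (by decide); omega
      have n3 : y ∉ closure (Ex T z {c, d}) := fun h5 => by
        have := le_of_pair_g C K (l := 3) h5 (by decide); omega
      have o2 : ∀ᶠ q in 𝓝 y, q ∉ closure (Ex T z {a, b}) :=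
        isClosed_closure.isOpen_compl.mem_nhds n2
      have o3 : ∀ᶠ q in 𝓝 y, q ∉ closure (Ex T z {c, d}) :=
        isClosed_closure.isOpen_compl.mem_nhds n3
      filter_upwards [mem_nhdsWithin_of_mem_nhds o2, mem_nhdsWithin_of_mem_nhds o3,
        mem_nhdsWithin_of_mem_nhds (h.nhd y), self_mem_nhdsWithin] with q k2 k3 k4 k5
      obtain ⟨l, hl⟩ := C.cover (y := q) k5
      fin_cases l
      · exact hl.2
      · exact absurd (k4 hl.2) hf
      · exact absurd hl k2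
      · exact absurd hl k3
    rw [← ef_eq C, Set.not_subset] at hsub
    obtain ⟨i, hi, hiy⟩ := hsub
    rcases hi with rfl | hi
    · exact main C.swapEF hiy
    · have hi : i = f := hi
      subst hi
      exact main C hiy

/-- **No two-pair centre** if all circles of two-pair centres are `GamC` -/
theorem no_D_of_gam (h : Irr U T) (h4 : ∀ z, (T z).ncard ≤ 4)
    (hK : ∀ z a b c d, DPt T z a b c d → GamC T z) :
    ∀ z a b c d, DPt T z a b c d → False :=
  no_D_of_goodG h h4 fun z a b c d hz => good_of_gam h hz (hK z a b c d hz)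

/-! ### a special point -/

/-- a special point `V` of the circle of `z`, more than three colours: it is on the closure of the
exact `ab`-arcs, or has the palette `{a, c, e, f}`, or has the palette `{a, b, e, f}` and a point at
distance one of the circle with both missing colours -/
structure Spc (T : ℂ → Set (Fin 6)) (z : ℂ) (a b c d e f : Fin 6) (V : ℂ) : Prop where
  dpt : DPt T z a b c d
  nd : [a, b, c, d, e, f].Nodup
  dist : dist V z = 1
  four : 4 ≤ (T V).ncard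
  kind : V ∈ closure (Ex T z {a, b}) ∨ T V = {a, c, e, f} ∨
    (T V = {a, b, e, f} ∧ ∃ V', Dist.dist V' z = 1 ∧ Dist.dist V V' = 1 ∧ e ∈ T V' ∧ f ∈ T V')

/-- a four element palette with the missing colours -/
theorem pal_cases (h4 : ∀ z, (T z).ncard ≤ 4) (C : Ctr U T z a b c d e f) {y : ℂ}
    (he : e ∈ T y) (hf : f ∈ T y) (h : 4 ≤ (T y).ncard) :
    T y = {a, b, e, f} ∨ T y = {c, d, e, f} ∨ T y = {a, c, e, f} ∨ T y = {a, d, e, f} ∨
      T y = {b, c, e, f} ∨ T y = {b, d, e, f} := by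
  obtain ⟨⟨ab, ac, ad, ae, af⟩, ⟨bc, bd, be, bf⟩, ⟨cd, ce, cf⟩, ⟨de, df⟩, ef⟩ := C.sep
  have h5 := h4 y
  have hsub : ({e, f} : Set (Fin 6)) ⊆ T y := by
    rintro i (rfl | rfl)
    exacts [he, hf]
  have h6 : (T y \ {e, f}).ncard = 2 := by
    rw [Set.ncard_sdiff hsub (Set.toFinite _), Set.ncard_pair ef]; omega
  obtain ⟨p, q, hpq, hS⟩ := Set.ncard_eq_two.1 h6
  have hT : T y = {p, q} ∪ {e, f} := by
    rw [← hS, Set.sdiff_union_of_subset hsub]
  have hp : p ∈ T y \ {e, f} := by rw [hS]; simp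
  have hq : q ∈ T y \ {e, f} := by rw [hS]; simp
  have hp' : p ≠ e ∧ p ≠ f := ⟨fun h => hp.2 (Or.inl h), fun h => hp.2 (Or.inr h)⟩
  have hq' : q ≠ e ∧ q ≠ f := ⟨fun h => hq.2 (Or.inl h), fun h => hq.2 (Or.inr h)⟩
  have e4 : ∀ r s : Fin 6, ({p, q} : Set (Fin 6)) = {r, s} → T y = {r, s, e, f} := by
    intro r s hrs
    rw [hT, hrs, four_eq]
  have sw : ∀ r s : Fin 6, ({p, q} : Set (Fin 6)) = {s, r} → ({p, q} : Set (Fin 6)) = {r, s} := by
    intro r s hrs
    rw [hrs, Set.pair_comm]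
  rcases C.all p with rfl | rfl | rfl | rfl | h7 | h7
  · rcases C.all q with rfl | rfl | rfl | rfl | h8 | h8
    · exact absurd rfl hpq
    · exact Or.inl (e4 _ _ rfl)
    · exact Or.inr (Or.inr (Or.inl (e4 _ _ rfl)))
    · exact Or.inr (Or.inr (Or.inr (Or.inl (e4 _ _ rfl))))
    · exact absurd h8 hq'.1
    · exact absurd h8 hq'.2
  · rcases C.all q with rfl | rfl | rfl | rfl | h8 | h8
    · exact Or.inl (e4 _ _ (sw _ _ rfl))
    · exact absurd rfl hpq
    · exact Or.inr (Or.inr (Or.inr (Or.inr (Or.inl (e4 _ _ rfl)))))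
    · exact Or.inr (Or.inr (Or.inr (Or.inr (Or.inr (e4 _ _ rfl)))))
    · exact absurd h8 hq'.1
    · exact absurd h8 hq'.2
  · rcases C.all q with rfl | rfl | rfl | rfl | h8 | h8
    · exact Or.inr (Or.inr (Or.inl (e4 _ _ (sw _ _ rfl))))
    · exact Or.inr (Or.inr (Or.inr (Or.inr (Or.inl (e4 _ _ (sw _ _ rfl))))))
    · exact absurd rfl hpq
    · exact Or.inr (Or.inl (e4 _ _ rfl))
    · exact absurd h8 hq'.1
    · exact absurd h8 hq'.2
  · rcases C.all q with rfl | rfl | rfl | rfl | h8 | h8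
    · exact Or.inr (Or.inr (Or.inr (Or.inl (e4 _ _ (sw _ _ rfl)))))
    · exact Or.inr (Or.inr (Or.inr (Or.inr (Or.inr (e4 _ _ (sw _ _ rfl))))))
    · exact Or.inr (Or.inl (e4 _ _ (sw _ _ rfl)))
    · exact absurd rfl hpq
    · exact absurd h8 hq'.1
    · exact absurd h8 hq'.2
  · exact absurd h7 hp'.1
  · exact absurd h7 hp'.2

/-- **A two-pair centre with a special point.** -/
theorem exists_special (h : Irr U T) (h4 : ∀ z, (T z).ncard ≤ 4) (hz : DPt T z a b c d) :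
    ∃ z a b c d e f V, Spc T z a b c d e f V := by
  by_contra hcon
  push Not at hcon
  refine no_D_of_gam h h4 ?_ z a b c d hz
  clear hz
  intro z a b c d hz
  obtain ⟨e, f, nd⟩ := hz.exists_nodup
  have C := ctr_of_dpt h hz nd
  obtain ⟨⟨ab, ac, ad, ae, af⟩, ⟨bc, bd, be, bf⟩, ⟨cd, ce, cf⟩, ⟨de, df⟩, ef⟩ := C.sep
  have nd12 : [b, a, c, d, e, f].Nodup := (List.Perm.swap b a [c, d, e, f]).nodup_iff.1 nd |> id
  have nd34 : ∀ {a b c d e f : Fin 6}, [a, b, c, d, e, f].Nodup → [a, b, d, c, e, f].Nodup := by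
    intro a b c d e f nd
    exact (List.Perm.cons a (List.Perm.cons b (List.Perm.swap d c [e, f]))).nodup_iff.1 nd
  have no4 : ∀ {a b c d : Fin 6}, DPt T z a b c d → [a, b, c, d, e, f].Nodup → ∀ {y : ℂ},
      Dist.dist y z = 1 → 4 ≤ (T y).ncard → T y ≠ {a, c, e, f} := by
    intro a b c d hz nd y hy hy4 hT
    exact hcon z a b c d e f y ⟨hz, nd, hy, hy4, Or.inr (Or.inl hT)⟩
  have sub_ef : ∀ {y : ℂ}, (T z)ᶜ ⊆ T y → e ∈ T y ∧ f ∈ T y := by
    intro y hy
    rw [← ef_eq C] at hy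
    exact ⟨hy (Or.inl rfl), hy (Or.inr rfl)⟩
  have ef_c : ({e, f} : Set (Fin 6)) = (T z)ᶜ := ef_eq C
  have ndac : [c, d, a, b, e, f].Nodup := C.swapAC.nd
  have two : ∀ y, Dist.dist y z = 1 → (T z)ᶜ ⊆ T y → 4 ≤ (T y).ncard →
      T y = {a, b, e, f} ∨ T y = {c, d, e, f} := by
    intro y hy hs hy4
    obtain ⟨he, hf⟩ := sub_ef hs
    rcases pal_cases h4 C he hf hy4 with h5 | h5 | h5 | h5 | h5 | h5
    · exact Or.inl h5
    · exact Or.inr h5
    · exact absurd h5 (no4 hz nd hy hy4)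
    · exact absurd h5 (no4 hz.swap34 (nd34 nd) hy hy4)
    · exact absurd h5 (no4 hz.swap12 nd12 hy hy4)
    · exact absurd h5 (no4 hz.swap12.swap34 (nd34 nd12) hy hy4)
  refine ⟨?_, ?_, ?_⟩
  · intro P hP hP2 y hy
    by_contra h5
    push Not at h5
    obtain ⟨p, hp⟩ := closure_nonempty_iff.1 ⟨y, hy⟩
    rcases ex_cases C hP hp with rfl | rfl
    · exact hcon z a b c d e f y ⟨hz, nd, dist_of_closure hy, h5, Or.inl hy⟩
    · exact hcon z c d a b e f y ⟨hz.swap, ndac, dist_of_closure hy, h5, Or.inl hy⟩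
  · intro y hy hs hy4
    rcases two y hy hs hy4 with h5 | h5
    · refine ⟨{a, b}, ?_, Set.ncard_pair ab, hz.arc1, ?_⟩
      · rw [hz.pal]; rintro i (rfl | rfl) <;> simp
      · rw [h5, ← ef_c, four_eq]
    · refine ⟨{c, d}, ?_, Set.ncard_pair cd, hz.arc2, ?_⟩
      · rw [hz.pal]; rintro i (rfl | rfl) <;> simp
      · rw [h5, ← ef_c, four_eq]
  · intro y y' hy hy' hyy hs hs'
    by_contra h5
    push Not at h5
    obtain ⟨he', hf'⟩ := sub_ef hs'
    rcases two y hy hs h5 with h6 | h6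
    · exact hcon z a b c d e f y ⟨hz, nd, hy, h5, Or.inr (Or.inr ⟨h6, y', hy', hyy, he', hf'⟩)⟩
    · exact hcon z c d a b e f y
        ⟨hz.swap, ndac, hy, h5, Or.inr (Or.inr ⟨h6, y', hy', hyy, he', hf'⟩)⟩

end Vale.Agent.P032.H942
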