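import Vale.Agent.P032.H942.Starts

/-!
# P032: the kinds of four coloured ends of the exact arcs of a two-pair point

Frame `Irr U T`, `Mn U T`.  `z` two-pair point `ab | cd`, missing
colours `ef`, `v` in the closure of the exact `ab`-arcs of `z`, four colours at `v`.
`ends_mutual3`: if `v` is a two-pair point and carries three colours of `z`, then `z` is in the
closure of the exact arcs of `v` (no assumption on the other points).
`end_kinds`: after renaming (`a` is the inner colour at `v`) the point `v` is of one of the kinds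
`abef` (harmless, or pairs `ae | bf`), `abce` (harmless, D2: `ac | be`, D1: `bc | ae`), `abcd`
(harmless, BETA: `ac | bd`).
-/

open Set Filter Topology Metric

noncomputable section

namespace Vale.Agent.P032.H942

open Vale.Agent.P032.Six Vale.Agent.P032.S5.H767 Vale.Agent.P032.S5.H358 Vale.Agent.P032.S5.H349
open Vale.Agent.P032.H510 Vale.Agent.P032.H361

variable {U : Fin 6 → Set ℂ} {T : ℂ → Set (Fin 6)} {z v : ℂ} {a b c d e f p q r s : Fin 6}

/-- at most one exact pair -/
def Hm (T : ℂ → Set (Fin 6)) (v : ℂ) : Prop := ∀ P ∈ MM T v, ∀ Q ∈ MM T v, P = Q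

/-- three different colours are not in a pair plus two other colours -/
theorem three_not {x y : Fin 6} (ha : a ∈ T z) (hb : b ∈ T z) (hc : c ∈ T z) (hab : a ≠ b)
    (hac : a ≠ c) (hbc : b ≠ c) (hae : a ≠ e) (hbe : b ≠ e) (hce : c ≠ e) (haf : a ≠ f)
    (hbf : b ≠ f) (hcf : c ≠ f) (hT : T z = {x, y, e, f}) : False := by
  rw [hT] at ha hb hc
  simp only [mem_insert_iff, mem_singleton_iff, hae, hbe, hce, haf, hbf, hcf, or_false] at ha hb hc
  rcases ha with rfl | rfl <;> rcases hb with rfl | rfl <;> rcases hc with rfl | rfl <;>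
    simp_all

/-- a four element palette with the missing colours -/
theorem pal_cases4 (C : Ctr U T z a b c d e f) {y : ℂ} (he : e ∈ T y) (hf : f ∈ T y)
    (h5 : (T y).ncard = 4) :
    T y = {a, b, e, f} ∨ T y = {c, d, e, f} ∨ T y = {a, c, e, f} ∨ T y = {a, d, e, f} ∨
      T y = {b, c, e, f} ∨ T y = {b, d, e, f} := by
  obtain ⟨⟨ab, ac, ad, ae, af⟩, ⟨bc, bd, be, bf⟩, ⟨cd, ce, cf⟩, ⟨de, df⟩, ef⟩ := C.sep
  have hsub : ({e, f} : Set (Fin 6)) ⊆ T y := by
    rintro i (rfl | rfl)
    exacts [he, hf]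
  have h6 : (T y \ {e, f}).ncard = 2 := by
    rw [Set.ncard_sdiff hsub (Set.toFinite _), Set.ncard_pair ef]; omega
  obtain ⟨p, q, hpq, hS⟩ := Set.ncard_eq_two.1 h6
  have hT : T y = {p, q} ∪ {e, f} := by
    rw [← hS, Set.sdiff_union_of_subset hsub]
  have hp : p ∈ T y \ {e, f} := by rw [hS]; simp
  have hq : q ∈ T y \ {e, f} := by rw [hS]; simp
  have hp' : p ≠ e ∧ p ≠ f := ⟨fun h => hp.2 (Or.inl h), fun h => hp.2 (Or.inr h)⟩
  have hq' : q ≠ e ∧ q ≠ f := ⟨fun h => hq.2 (Or.inl h), fun h => hq.2 (Or.inr h)⟩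
  have e4 : ∀ r s : Fin 6, ({p, q} : Set (Fin 6)) = {r, s} → T y = {r, s, e, f} := by
    intro r s hrs
    rw [hT, hrs, four_eq]
  have sw : ∀ r s : Fin 6, ({p, q} : Set (Fin 6)) = {s, r} → ({p, q} : Set (Fin 6)) = {r, s} := by
    intro r s hrs
    rw [hrs, Set.pair_comm]
  rcases C.all p with rfl | rfl | rfl | rfl | h7 | h7
  · rcases C.all q with rfl | rfl | rfl | rfl | h8 | h8
    · exact absurd rfl hpq
    · exact Or.inl (e4 _ _ rfl)
    · exact Or.inr (Or.inr (Or.inl (e4 _ _ rfl)))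
    · exact Or.inr (Or.inr (Or.inr (Or.inl (e4 _ _ rfl))))
    · exact absurd h8 hq'.1
    · exact absurd h8 hq'.2
  · rcases C.all q with rfl | rfl | rfl | rfl | h8 | h8
    · exact Or.inl (e4 _ _ (sw _ _ rfl))
    · exact absurd rfl hpq
    · exact Or.inr (Or.inr (Or.inr (Or.inr (Or.inl (e4 _ _ rfl)))))
    · exact Or.inr (Or.inr (Or.inr (Or.inr (Or.inr (e4 _ _ rfl)))))
    · exact absurd h8 hq'.1
    · exact absurd h8 hq'.2
  · rcases C.all q with rfl | rfl | rfl | rfl | h8 | h8
    · exact Or.inr (Or.inr (Or.inl (e4 _ _ (sw _ _ rfl))))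
    · exact Or.inr (Or.inr (Or.inr (Or.inr (Or.inl (e4 _ _ (sw _ _ rfl))))))
    · exact absurd rfl hpq
    · exact Or.inr (Or.inl (e4 _ _ rfl))
    · exact absurd h8 hq'.1
    · exact absurd h8 hq'.2
  · rcases C.all q with rfl | rfl | rfl | rfl | h8 | h8
    · exact Or.inr (Or.inr (Or.inr (Or.inl (e4 _ _ (sw _ _ rfl)))))
    · exact Or.inr (Or.inr (Or.inr (Or.inr (Or.inr (e4 _ _ (sw _ _ rfl))))))
    · exact Or.inr (Or.inl (e4 _ _ (sw _ _ rfl)))
    · exact absurd rfl hpq
    · exact absurd h8 hq'.1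
    · exact absurd h8 hq'.2
  · exact absurd h7 hp'.1
  · exact absurd h7 hp'.2

/-- the types of a point with four colours -/
theorem point_types4 (h : Irr U T) (hz : DPt T z a b c d) (nd : [a, b, c, d, e, f].Nodup) {y : ℂ}
    (hy4 : (T y).ncard = 4) :
    y ∈ closure (Ex T z {a, b}) ∨ y ∈ closure (Ex T z {c, d}) ∨
      (T y = {a, b, e, f} ∨ T y = {c, d, e, f} ∨ T y = {a, c, e, f} ∨ T y = {a, d, e, f} ∨
        T y = {b, c, e, f} ∨ T y = {b, d, e, f}) ∨
      (f ∉ T y ∧ ∀ᶠ w in 𝓝[sphere z 1] y, e ∈ T w) ∨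
      (e ∉ T y ∧ ∀ᶠ w in 𝓝[sphere z 1] y, f ∈ T w) := by
  have C := ctr_of_dpt h hz nd
  by_cases n2 : y ∈ closure (Ex T z {a, b})
  · exact Or.inl n2
  by_cases n3 : y ∈ closure (Ex T z {c, d})
  · exact Or.inr (Or.inl n3)
  right; right
  have o2 : ∀ᶠ q in 𝓝 y, q ∉ closure (Ex T z {a, b}) :=
    isClosed_closure.isOpen_compl.mem_nhds n2
  have o3 : ∀ᶠ q in 𝓝 y, q ∉ closure (Ex T z {c, d}) :=
    isClosed_closure.isOpen_compl.mem_nhds n3
  have main : ∀ {e f : Fin 6}, Ctr U T z a b c d e f → f ∉ T y →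
      ∀ᶠ w in 𝓝[sphere z 1] y, e ∈ T w := by
    intro e f C hf
    filter_upwards [mem_nhdsWithin_of_mem_nhds o2, mem_nhdsWithin_of_mem_nhds o3,
      mem_nhdsWithin_of_mem_nhds (h.nhd y), self_mem_nhdsWithin] with q k2 k3 k4 k5
    obtain ⟨l, hl⟩ := C.cover (y := q) k5
    fin_cases l
    · exact hl.2
    · exact absurd (k4 hl.2) hf
    · exact absurd hl k2
    · exact absurd hl k3
  by_cases hf : f ∈ T y
  · by_cases he : e ∈ T y
    · exact Or.inl (pal_cases4 C he hf hy4)
    · exact Or.inr (Or.inr ⟨he, main C.swapEF he⟩)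
  · exact Or.inr (Or.inl ⟨hf, main C hf⟩)

/-- **Mutual ends.** -/
theorem ends_mutual3 (h : Irr U T) (hmn : Mn U T)
    (hz : DPt T z a b c d) (hv : DPt T v p q r s) (hE : v ∈ closure (Ex T z {a, b}))
    (hcv : c ∈ T v) : z ∈ closure (Ex T v {p, q}) ∨ z ∈ closure (Ex T v {r, s}) := by
  have hz4 : 4 ≤ (T z).ncard := by rw [DPt.card hz]
  obtain ⟨e, f, nd⟩ := hv.exists_nodup
  have hsub := sub_of_closure h hE
  have ha : a ∈ T v := hsub (Or.inl rfl)
  have hb : b ∈ T v := hsub (Or.inr rfl)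
  have haz : a ∈ T z := by rw [hz.pal]; simp
  have hbz : b ∈ T z := by rw [hz.pal]; simp
  have hcz : c ∈ T z := by rw [hz.pal]; simp
  have hev : e ∉ T v := by
    rw [hv.pal]
    simp only [List.nodup_cons, List.mem_cons, List.not_mem_nil, or_false, not_or,
      not_false_eq_true, List.nodup_nil, and_true] at nd
    obtain ⟨⟨ab, ac, ad, ae, af⟩, ⟨bc, bd, be, bf⟩, ⟨cd, ce, cf⟩, ⟨de, df⟩, ef⟩ := nd
    simp [Ne.symm ae, Ne.symm be, Ne.symm ce, Ne.symm de]
  have hfv : f ∉ T v := by
    rw [hv.pal]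
    simp only [List.nodup_cons, List.mem_cons, List.not_mem_nil, or_false, not_or,
      not_false_eq_true, List.nodup_nil, and_true] at nd
    obtain ⟨⟨ab, ac, ad, ae, af⟩, ⟨bc, bd, be, bf⟩, ⟨cd, ce, cf⟩, ⟨de, df⟩, ef⟩ := nd
    simp [Ne.symm af, Ne.symm bf, Ne.symm cf, Ne.symm df]
  have ne : ∀ {i j : Fin 6}, i ∈ T v → j ∉ T v → i ≠ j := by
    rintro i j hi hj rfl
    exact hj hi
  rcases point_types4 h hv nd (DPt.card hz) with h1 | h1 | h1 | ⟨hf, hr⟩ | ⟨he, hr⟩
  · exact Or.inl h1
  · exact Or.inr h1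
  · exfalso
    rcases h1 with h1 | h1 | h1 | h1 | h1 | h1 <;>
      exact three_not haz hbz hcz hz.ab hz.ac hz.bc (ne ha hev) (ne hb hev) (ne hcv hev)
        (ne ha hfv) (ne hb hfv) (ne hcv hfv) h1
  · exfalso
    rcases pair_of_three h hz4 hv nd hf with ⟨h2, h3⟩ | ⟨h2, h3⟩
    · exact no_run_end h hmn hz hv hE hev hr h2 h3
    · exact no_run_end h hmn hz hv.swap hE hev hr h2 h3
  · exfalso
    have nd' : [p, q, r, s, f, e].Nodup :=
      (((((List.Perm.swap f e []).cons s).cons r).cons q).cons p).nodup_iff.1 nd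
    rcases pair_of_three h hz4 hv nd' he with ⟨h2, h3⟩ | ⟨h2, h3⟩
    · exact no_run_end h hmn hz hv hE hfv hr h2 h3
    · exact no_run_end h hmn hz hv.swap hE hfv hr h2 h3

theorem swap34 (hv : DPt T v p q r s) : DPt T v p q s r := hv.swap.swap12.swap

/-- the three ways to pair off four colours, the colour `p` first -/
theorem dpt_cases1 {x y w : Fin 6} (hv : DPt T v p q r s) (hT : T v = {p, x, y, w})
    (px : p ≠ x) (py : p ≠ y) (pw : p ≠ w) (xy : x ≠ y) (xw : x ≠ w) (yw : y ≠ w) :
    DPt T v p x y w ∨ DPt T v p y x w ∨ DPt T v p w x y := by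
  have hx : x ∈ T v := by rw [hT]; simp
  have hy : y ∈ T v := by rw [hT]; simp
  have hw : w ∈ T v := by rw [hT]; simp
  rw [hv.pal] at hx hy hw
  simp only [mem_insert_iff, mem_singleton_iff, px.symm, py.symm, pw.symm, false_or] at hx hy hw
  rcases hx with rfl | rfl | rfl
  · rcases hy with rfl | rfl | rfl
    · exact absurd rfl xy
    · rcases hw with rfl | rfl | rfl
      · exact absurd rfl xw
      · exact absurd rfl yw
      · exact Or.inl hv
    · rcases hw with rfl | rfl | rfl
      · exact absurd rfl xw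
      · exact Or.inl (swap34 hv)
      · exact absurd rfl yw
  · rcases hy with rfl | rfl | rfl
    · rcases hw with rfl | rfl | rfl
      · exact absurd rfl yw
      · exact absurd rfl xw
      · exact Or.inr (Or.inl hv)
    · exact absurd rfl xy
    · rcases hw with rfl | rfl | rfl
      · exact Or.inr (Or.inr hv)
      · exact absurd rfl xw
      · exact absurd rfl yw
  · rcases hy with rfl | rfl | rfl
    · rcases hw with rfl | rfl | rfl
      · exact absurd rfl yw
      · exact Or.inr (Or.inl (swap34 hv))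
      · exact absurd rfl xw
    · rcases hw with rfl | rfl | rfl
      · exact Or.inr (Or.inr (swap34 hv))
      · exact absurd rfl yw
      · exact absurd rfl xw
    · exact absurd rfl xy

/-- the three ways to pair off the four colours `a, x, y, w` of a two-pair point -/
theorem dpt_cases {x y w : Fin 6} (hv : DPt T v p q r s) (hT : T v = {a, x, y, w})
    (px : a ≠ x) (py : a ≠ y) (pw : a ≠ w) (xy : x ≠ y) (xw : x ≠ w) (yw : y ≠ w) :
    DPt T v a x y w ∨ DPt T v a y x w ∨ DPt T v a w x y := by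
  have ha : a ∈ T v := by rw [hT]; simp
  rw [hv.pal] at ha
  rcases ha with rfl | rfl | rfl | ha
  · exact dpt_cases1 hv hT px py pw xy xw yw
  · exact dpt_cases1 hv.swap12 hT px py pw xy xw yw
  · exact dpt_cases1 hv.swap hT px py pw xy xw yw
  · rw [mem_singleton_iff] at ha
    subst ha
    exact dpt_cases1 hv.swap.swap12 hT px py pw xy xw yw

/-- an end `v` of the exact `ab`-arcs of the two-pair point `z` (pairs `ab | cd`, missing `ef`), the
colour `a` is inside at `v` -/
structure EndK (U : Fin 6 → Set ℂ) (T : ℂ → Set (Fin 6)) (z v : ℂ) (a b c d e f : Fin 6) :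
    Prop where
  dpt : DPt T z a b c d
  nd : [a, b, c, d, e, f].Nodup
  cl : v ∈ closure (Ex T z {a, b})
  sd : Sd U z v a b

/-- kind `abef`: harmless, or a two-pair point `ae | bf` -/
def K45 (T : ℂ → Set (Fin 6)) (v : ℂ) (a b e f : Fin 6) : Prop :=
  T v = {a, b, e, f} ∧ (Hm T v ∨ DPt T v a e b f)

/-- kind `abce`: harmless, or D2 (`ac | be`), or D1 (`bc | ae`), mutual -/
def K24 (T : ℂ → Set (Fin 6)) (z v : ℂ) (a b c e : Fin 6) : Prop :=
  T v = {a, b, c, e} ∧ (Hm T v ∨ (DPt T v a c b e ∧ z ∈ closure (Ex T v {a, c})) ∨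
    (DPt T v b c a e ∧ z ∈ closure (Ex T v {b, c})))

/-- kind `abcd`: harmless, or BETA (`ac | bd`), mutual -/
def K23 (T : ℂ → Set (Fin 6)) (z v : ℂ) (a b c d : Fin 6) : Prop :=
  T v = {a, b, c, d} ∧ (Hm T v ∨ (DPt T v a c b d ∧
    (z ∈ closure (Ex T v {a, c}) ∨ z ∈ closure (Ex T v {b, d}))))

theorem EndK.swapCD (K : EndK U T z v a b c d e f) : EndK U T z v a b d c e f :=
  ⟨swap34 K.dpt, (((List.Perm.swap d c _).cons b).cons a).nodup_iff.1 K.nd, K.cl, K.sd⟩

theorem EndK.swapEF (K : EndK U T z v a b c d e f) : EndK U T z v a b c d f e :=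
  ⟨K.dpt, (((((List.Perm.swap f e []).cons d).cons c).cons b).cons a).nodup_iff.1 K.nd, K.cl, K.sd⟩

theorem EndK.sub (h : Irr U T) (K : EndK U T z v a b c d e f) : a ∈ T v ∧ b ∈ T v :=
  ⟨sub_of_closure h K.cl (Or.inl rfl), sub_of_closure h K.cl (Or.inr rfl)⟩

theorem MM_dpt (hv : DPt T v p q r s) : ¬ Hm T v := by
  intro hm
  obtain ⟨x, hx⟩ := hv.arc1
  obtain ⟨y, hy⟩ := hv.arc2
  have h1 : ({p, q} : Set (Fin 6)) ∈ MM T v :=
    ⟨by rw [hv.pal]; intro i; simp; tauto, Set.ncard_pair hv.ab, x, hx.1, by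
      filter_upwards [hx.2] with w hw using hw⟩
  have h2 : ({r, s} : Set (Fin 6)) ∈ MM T v :=
    ⟨by rw [hv.pal]; intro i; simp; tauto, Set.ncard_pair hv.cd, y, hy.1, by
      filter_upwards [hy.2] with w hw using hw⟩
  have h3 := hm _ h1 _ h2
  have h4 : p ∈ ({r, s} : Set (Fin 6)) := by rw [← h3]; simp
  rcases h4 with h4 | h4
  · exact hv.ac h4
  · exact hv.ad h4

/-- an exact pair of `v` near `z` consists of colours of `z` -/
theorem not_cl (h : Irr U T) {P : Set (Fin 6)} {i : Fin 6} (hi : i ∈ P) (hiz : i ∉ T z) :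
    z ∉ closure (Ex T v P) := fun hcl => hiz (sub_of_closure h hcl hi)

/-- **The kinds of special ends.** -/
theorem end_kinds (h : Irr U T) (hmn : Mn U T)
    (hz : DPt T z a b c d) (hE : v ∈ closure (Ex T z {a, b})) (hv4 : (T v).ncard = 4) :
    ∃ a b c d e f, EndK U T z v a b c d e f ∧
      (K45 T v a b e f ∨ K24 T z v a b c e ∨ K23 T z v a b c d) := by
  have hvz : dist v z = 1 := dist_of_closure hE
  -- the colour `a` inside
  obtain ⟨a, b, c, d, e, f, K⟩ : ∃ a b c d e f, EndK U T z v a b c d e f := by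
    rcases h.sides hz hvz with h1 | h1
    · obtain ⟨e, f, nd⟩ := hz.exists_nodup
      exact ⟨a, b, c, d, e, f, hz, nd, hE, h1⟩
    · obtain ⟨e, f, nd⟩ := hz.swap12.exists_nodup
      exact ⟨b, a, c, d, e, f, hz.swap12, nd, by rw [Set.pair_comm]; exact hE, h1⟩
  clear hz hE
  -- the third and the fourth colour
  have all := (ctr_of_dpt h K.dpt K.nd).all
  have mk : ∀ {a b c d e f x y : Fin 6}, EndK U T z v a b c d e f → x ∈ T v → y ∈ T v →
      [a, b, x, y].Nodup → T v = {a, b, x, y} := by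
    intro a b c d e f x y K hx hy nd
    simp only [List.nodup_cons, List.mem_cons, List.not_mem_nil, or_false, not_or,
      not_false_eq_true, List.nodup_nil, and_true] at nd
    obtain ⟨⟨ab, ax, ay⟩, ⟨bx, bby⟩, xy⟩ := nd
    obtain ⟨ha, hb⟩ := K.sub h
    symm
    refine Set.eq_of_subset_of_ncard_le ?_ ?_ (Set.toFinite _)
    · rintro i (rfl | rfl | rfl | rfl)
      exacts [ha, hb, hx, hy]
    · rw [hv4, Set.ncard_insert_of_notMem (by simp [ab, ax, ay]),
        Set.ncard_insert_of_notMem (by simp [bx, bby]), Set.ncard_pair xy]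
  -- the three kinds
  have k45 : ∀ {a b c d e f : Fin 6}, EndK U T z v a b c d e f → e ∈ T v → f ∈ T v →
      ∃ a b c d e f, EndK U T z v a b c d e f ∧
        (K45 T v a b e f ∨ K24 T z v a b c e ∨ K23 T z v a b c d) := by
    intro a b c d e f K he hf
    obtain ⟨⟨ab, ac, ad, ae, af⟩, ⟨bc, bd, be, bf⟩, ⟨cd, ce, cf⟩, ⟨de, df⟩, ef⟩ := nd_ne K.nd
    have hT : T v = {a, b, e, f} := mk K he hf (by simp [ab, ae, af, be, bf, ef])
    by_cases hm : Hm T v
    · exact ⟨a, b, c, d, e, f, K, Or.inl ⟨hT, Or.inl hm⟩⟩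
    unfold Hm at hm
    push Not at hm
    obtain ⟨P, hP, Q, hQ, hne⟩ := hm
    obtain ⟨p, q, r, s, hv⟩ := dpt_of_two h hmn hv4 hP hQ hne
    rcases dpt_cases hv hT ab ae af be bf ef with h1 | h1 | h1
    · exact (no_own_pair h K.dpt h1 K.cl).elim
    · exact ⟨a, b, c, d, e, f, K, Or.inl ⟨hT, Or.inr h1⟩⟩
    · refine ⟨a, b, c, d, f, e, K.swapEF, Or.inl ⟨?_, Or.inr h1⟩⟩
      rw [hT, Set.pair_comm e f]
  have k24 : ∀ {a b c d e f : Fin 6}, EndK U T z v a b c d e f → c ∈ T v → e ∈ T v →
      ∃ a b c d e f, EndK U T z v a b c d e f ∧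
        (K45 T v a b e f ∨ K24 T z v a b c e ∨ K23 T z v a b c d) := by
    intro a b c d e f K hc he
    obtain ⟨⟨ab, ac, ad, ae, af⟩, ⟨bc, bd, be, bf⟩, ⟨cd, ce, cf⟩, ⟨de, df⟩, ef⟩ := nd_ne K.nd
    have hT : T v = {a, b, c, e} := mk K hc he (by simp [ab, ac, ae, bc, be, ce])
    refine ⟨a, b, c, d, e, f, K, Or.inr (Or.inl ⟨hT, ?_⟩)⟩
    by_cases hm : Hm T v
    · exact Or.inl hm
    unfold Hm at hm
    push Not at hm
    obtain ⟨P, hP, Q, hQ, hne⟩ := hm
    obtain ⟨p, q, r, s, hv⟩ := dpt_of_two h hmn hv4 hP hQ hne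
    have heZ : e ∉ T z := by
      rw [K.dpt.pal]
      simp [ae.symm, be.symm, ce.symm, de.symm]
    rcases dpt_cases hv hT ab ac ae bc be ce with h1 | h1 | h1
    · exact (no_own_pair h K.dpt h1 K.cl).elim
    · refine Or.inr (Or.inl ⟨h1, ?_⟩)
      exact (ends_mutual3 h hmn K.dpt h1 K.cl hc).resolve_right
        (not_cl h (i := e) (by simp) heZ)
    · refine Or.inr (Or.inr ⟨h1.swap, ?_⟩)
      exact (ends_mutual3 h hmn K.dpt h1 K.cl hc).resolve_left
        (not_cl h (i := e) (by simp) heZ)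
  have k23 : ∀ {a b c d e f : Fin 6}, EndK U T z v a b c d e f → c ∈ T v → d ∈ T v →
      ∃ a b c d e f, EndK U T z v a b c d e f ∧
        (K45 T v a b e f ∨ K24 T z v a b c e ∨ K23 T z v a b c d) := by
    intro a b c d e f K hc hd
    obtain ⟨⟨ab, ac, ad, ae, af⟩, ⟨bc, bd, be, bf⟩, ⟨cd, ce, cf⟩, ⟨de, df⟩, ef⟩ := nd_ne K.nd
    have hT : T v = {a, b, c, d} := mk K hc hd (by simp [ab, ac, ad, bc, bd, cd])
    by_cases hm : Hm T v
    · exact ⟨a, b, c, d, e, f, K, Or.inr (Or.inr ⟨hT, Or.inl hm⟩)⟩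
    unfold Hm at hm
    push Not at hm
    obtain ⟨P, hP, Q, hQ, hne⟩ := hm
    obtain ⟨p, q, r, s, hv⟩ := dpt_of_two h hmn hv4 hP hQ hne
    rcases dpt_cases hv hT ab ac ad bc bd cd with h1 | h1 | h1
    · exact (no_own_pair h K.dpt h1 K.cl).elim
    · exact ⟨a, b, c, d, e, f, K, Or.inr (Or.inr ⟨hT, Or.inr ⟨h1,
        ends_mutual3 h hmn K.dpt h1 K.cl hc⟩⟩)⟩
    · refine ⟨a, b, d, c, e, f, K.swapCD, Or.inr (Or.inr ⟨?_, Or.inr ⟨h1,
        ends_mutual3 h hmn K.dpt h1 K.cl hc⟩⟩)⟩
      rw [hT, Set.pair_comm c d]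
  -- which colours
  by_cases hc : c ∈ T v
  · by_cases hd : d ∈ T v
    · exact k23 K hc hd
    · by_cases he : e ∈ T v
      · exact k24 K hc he
      · by_cases hf : f ∈ T v
        · exact k24 K.swapEF hc hf
        · exfalso
          have : T v ⊆ {a, b, c} := by
            intro i hi
            rcases all i with rfl | rfl | rfl | rfl | rfl | rfl
            · simp
            · simp
            · simp
            · exact absurd hi hd
            · exact absurd hi he
            · exact absurd hi hf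
          have h5 := Set.ncard_le_ncard this (Set.toFinite _)
          have k1 := Set.ncard_insert_le a {b, c}
          have k2 := Set.ncard_insert_le b {c}
          rw [Set.ncard_singleton] at k2
          omega
  · by_cases hd : d ∈ T v
    · by_cases he : e ∈ T v
      · exact k24 K.swapCD hd he
      · by_cases hf : f ∈ T v
        · exact k24 K.swapCD.swapEF hd hf
        · exfalso
          have : T v ⊆ {a, b, d} := by
            intro i hi
            rcases all i with rfl | rfl | rfl | rfl | rfl | rfl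
            · simp
            · simp
            · exact absurd hi hc
            · simp
            · exact absurd hi he
            · exact absurd hi hf
          have h5 := Set.ncard_le_ncard this (Set.toFinite _)
          have k1 := Set.ncard_insert_le a {b, d}
          have k2 := Set.ncard_insert_le b {d}
          rw [Set.ncard_singleton] at k2
          omega
    · by_cases he : e ∈ T v
      · by_cases hf : f ∈ T v
        · exact k45 K he hf
        · exfalso
          have : T v ⊆ {a, b, e} := by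
            intro i hi
            rcases all i with rfl | rfl | rfl | rfl | rfl | rfl
            · simp
            · simp
            · exact absurd hi hc
            · exact absurd hi hd
            · simp
            · exact absurd hi hf
          have h5 := Set.ncard_le_ncard this (Set.toFinite _)
          have k1 := Set.ncard_insert_le a {b, e}
          have k2 := Set.ncard_insert_le b {e}
          rw [Set.ncard_singleton] at k2
          omega
      · exfalso
        have : T v ⊆ {a, b, f} := by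
          intro i hi
          rcases all i with rfl | rfl | rfl | rfl | rfl | rfl
          · simp
          · simp
          · exact absurd hi hc
          · exact absurd hi hd
          · exact absurd hi he
          · simp
        have h5 := Set.ncard_le_ncard this (Set.toFinite _)
        have k1 := Set.ncard_insert_le a {b, f}
        have k2 := Set.ncard_insert_le b {f}
        rw [Set.ncard_singleton] at k2
        omega

end Vale.Agent.P032.H942
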